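import Vale.Agent.P006.DN.Blocks

/-!
P006, block TIIC (helper570): statement shapes for the centre assembly.
-/

namespace Vale.Agent.P006.TIIC

open Finset H611

/-- the block sum of level `l`, localised in both variables: `a` in the block
`⌊N a / 2^l⌋ = s`, `b` in the block `⌊Y_b / 2^l⌋ = s + 1`, `Y_b = ⌊x / N b⌋ + 1` -/
noncomputable def TL (D : O → O → ℂ) (α β : O → ℂ) (x : ℝ) (i j l : ℕ) : ℝ :=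
  ∑ s ∈ range (2 ^ (i + 1)), ‖∑ b ∈ DB j with (⌊x / N b⌋₊ + 1) / 2 ^ l = s + 1,
    ∑ a ∈ DB i with N a / 2 ^ l = s, α a * β b * D a b‖

/-- **FINE** (helper828): the fine boxes, `A = 2^i`, `B = 2^j`, `δ = 2^l / 2^i`. -/
def FineHyp : Prop :=
  ∀ ε : ℝ, 0 < ε → ∃ C : ℝ, 0 ≤ C ∧ ∀ (i j l : ℕ) (x : ℝ), l ≤ i → 1 ≤ x → ∀ α β : O → ℂ,
    (∀ a, ‖α a‖ ≤ 1) → (∀ b, ‖β b‖ ≤ 1) → ∀ A B δ : ℝ, A = 2 ^ i → B = 2 ^ j →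
    δ = 2 ^ l / 2 ^ i →
    TL (fun a b => (starRingEnd ℂ) (toC (sym a b))) α β x i j l ≤
      C * (A * B) ^ ε * (δ ^ (1 / 2 : ℝ) * B * A ^ (1 / 2 : ℝ)
        + A * B ^ (1 / 2 : ℝ) * δ ^ (-(1 / 4) : ℝ)
        + (A * B) ^ (5 / 6 : ℝ) * δ ^ (5 / 12 : ℝ)
        + B ^ (2 / 3 : ℝ) * A * δ ^ (1 / 12 : ℝ))

/-- **CenDN**: dispersion in the centre for the coefficient sequences `cut (X^η) y₁ y₂ (f X)`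
and the coarse levels `2^l ≥ 2^i X^(-ε₀)` -/
def CenDN (f : ℝ → O → ℂ) (η κ ε₀ : ℝ) : Prop :=
  ∀ A : ℕ, ∃ C : ℝ, 0 ≤ C ∧ ∀ X : ℝ, 3 ≤ X → ∀ y₁ y₂ : ℝ, ∀ i j l : ℕ,
    X ^ (1 / 2 - κ) ≤ (2 : ℝ) ^ i → (2 : ℝ) ^ i ≤ X ^ (1 / 2 + κ) →
    X ^ (1 / 2 - κ) ≤ (2 : ℝ) ^ j → (2 : ℝ) ^ (i + j) ≤ X →
    (2 : ℝ) ^ i ≤ X ^ ε₀ * 2 ^ l →
    FS (fun a b => wf (a * b)) (cut (X ^ η) y₁ y₂ (f X)) i j l ≤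
      C * X ^ (5 / 3 : ℝ) / (2 ^ j * Real.log X ^ A)

end Vale.Agent.P006.TIIC
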