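import Vale.Agent.P006.TIIC.Defs
import Vale.Agent.P006.DN.NCfam

/-!
P006, block TIIC (helper570): the interface with the non-cube block in the centre (helper211).
-/

namespace Vale.Agent.P006.TIIC

open scoped Classical
open Finset H611 DN

/-- the coefficient `cut (X^η) y₁ y₂ (f X)` restricted to the dyadic block `DB i`, that is
`A < N a ≤ 2 A` with `A = 2^i - 1/2` -/
noncomputable def alc (f : ℝ → O → ℂ) (η X y₁ y₂ : ℝ) (i : ℕ) (a : O) : ℂ :=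
  if (2 : ℝ) ^ i - 1 / 2 < (N a : ℝ) ∧ (N a : ℝ) ≤ 2 * ((2 : ℝ) ^ i - 1 / 2) then
    cut (X ^ η) y₁ y₂ (f X) a else 0

/-- **NC in the centre** (helper211): the non-cube quadratic form for the scaled twisted blocks
`gam α l A G σ t s = (4 G)⁻¹ * twc (blk α l s) A σ t`, `α = alc f η X y₁ y₂ i`, `A = 2^i - 1/2`,
`G = 16 log X`, `H ≤ (2A)^(1+κ₀)`, coarse levels `2^i ≤ X^e 2^l`, with the Siegel–Walfisz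
hypothesis for the small kernels and the loss `(1+|t|)^6` in the power saving. -/
def NCcen (f : ℝ → O → ℂ) (η κ₀ e : ℝ) : Prop :=
  ∃ C : ℝ, 0 ≤ C ∧ ∀ X : ℝ, 3 ≤ X → ∀ i l : ℕ, X ^ (1 / 2 - κ₀) ≤ (2 : ℝ) ^ i →
    (2 : ℝ) ^ i ≤ X ^ (1 / 2 + κ₀) → (2 : ℝ) ^ i ≤ X ^ e * 2 ^ l →
    ∀ y₁ y₂ σ t : ℝ, (σ = -(1 / 3) ∨ σ = 3 / 2) →
    ∀ (S : Finset ℕ) (H Q0 J0 sw : ℝ), 1 ≤ H →
    H ≤ (2 * ((2 : ℝ) ^ i - 1 / 2)) ^ (1 + κ₀) → 1 ≤ Q0 → 1 ≤ J0 → 0 ≤ sw →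
    NC.SWhyp S (fun s => gam (alc f η X y₁ y₂ i) l ((2 : ℝ) ^ i - 1 / 2) (16 * Real.log X) σ t s)
      (2 * ((2 : ℝ) ^ i - 1 / 2)) H Q0 J0 sw →
    ∑ s ∈ S, NCQ (gam (alc f η X y₁ y₂ i) l ((2 : ℝ) ^ i - 1 / 2) (16 * Real.log X) σ t s)
      (2 * ((2 : ℝ) ^ i - 1 / 2)) H ≤
      C * (2 * ((2 : ℝ) ^ i - 1 / 2)) ^ 2 * H ^ (1 / 3 : ℝ) *
        (Q0 ^ 3 * (J0 ^ 2 * sw + J0 ^ (-(1 / 2 : ℝ))) +
          (1 + Real.log (2 * ((2 : ℝ) ^ i - 1 / 2))) ^ 3 * Q0 ^ (-(1 / 3 : ℝ)) +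
          (1 + |t|) ^ 6 * (2 * ((2 : ℝ) ^ i - 1 / 2)) ^ (-e))

end Vale.Agent.P006.TIIC
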