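import Vale.Agent.P006.TIIC.CenDN
import Vale.Agent.P006.FINE.Hyp
import Vale.Agent.P006.H103.Defs2
import Vale.Agent.P006.Main.Bridges

/-!
P006, block TIIC (helper570): the centre theorems TIIPH, TIIBH from the non-cube bounds.
-/

namespace Vale.Agent.P006.TIIC

open scoped Classical
open Finset H611 DN

variable {κ₀ e : ℝ} {f : ℝ → O → ℂ} {η : ℝ}

theorem NCcen.mono (h : NCcen f η κ₀ e) {e' : ℝ} (he : e' ≤ e) : NCcen f η κ₀ e' := by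
  obtain ⟨C, hC, h⟩ := h
  refine ⟨C, hC, ?_⟩
  intro X hX i l h1 h2 h3 y₁ y₂ σ t hσ S H Q0 J0 sw hH1 hH2 hQ0 hJ0 hsw hSW
  have hX0 : 0 < X := by linarith
  have h3' : (2 : ℝ) ^ i ≤ X ^ e * 2 ^ l := by
    refine h3.trans ?_
    refine mul_le_mul_of_nonneg_right ?_ (by positivity)
    exact Real.rpow_le_rpow_of_exponent_le (by linarith) he
  refine (h X hX i l h1 h2 h3' y₁ y₂ σ t hσ S H Q0 J0 sw hH1 hH2 hQ0 hJ0 hsw hSW).trans ?_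
  have h2i : (1 : ℝ) ≤ 2 ^ i := one_le_pow₀ (by norm_num)
  have hY1 : 1 ≤ 2 * ((2 : ℝ) ^ i - 1 / 2) := by linarith
  have h4 : (2 * ((2 : ℝ) ^ i - 1 / 2)) ^ (-e) ≤ (2 * ((2 : ℝ) ^ i - 1 / 2)) ^ (-e') :=
    Real.rpow_le_rpow_of_exponent_le hY1 (by linarith)
  have h5 : 0 ≤ (1 + |t|) ^ 6 := by positivity
  have h6 : 0 ≤ C * (2 * ((2 : ℝ) ^ i - 1 / 2)) ^ 2 * H ^ (1 / 3 : ℝ) := by positivity
  refine mul_le_mul_of_nonneg_left ?_ h6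
  have h7 := mul_le_mul_of_nonneg_left h4 h5
  linarith

theorem pow_le_self {X κ : ℝ} (hX : 1 ≤ X) (hκ : κ ≤ 1 / 2) : X ^ (1 / 2 + κ) ≤ X := by
  conv_rhs => rw [← Real.rpow_one X]
  exact Real.rpow_le_rpow_of_exponent_le hX (by linarith)

/-- one coefficient sequence -/
theorem cen_one (hD : DISP.DispStmt) (hF : FineHyp) (hHB : HBsq) (hκ₀ : 0 < κ₀) (he : 0 < e)
    (hNC : NCcen f η κ₀ e) (hcls : Hcls f η) : ∃ κ₂ : ℝ, 0 < κ₂ ∧ ∀ κ : ℝ, 0 < κ → κ ≤ κ₂ →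
    ∀ A : ℕ, ∃ C : ℝ, 0 ≤ C ∧ ∀ X : ℝ, 3 ≤ X → ∀ β : O → ℂ,
      (∀ b, ‖β b‖ ≤ 1) → (∀ b, β b ≠ 0 → Primary b ∧ Squarefree b) →
      ∀ x : ℝ, x ≤ X →
      ‖Bil wf (cut (X ^ η) (X ^ (1 / 2 - κ)) (X ^ (1 / 2 + κ)) (f X)) β x‖ ≤
        C * X ^ (5 / 6 : ℝ) / Real.log X ^ A := by
  set e' : ℝ := min e 1 with he'
  have he'0 : 0 < e' := lt_min he one_pos
  have he'1 : e' ≤ 1 := min_le_right _ _
  have hNC' : NCcen f η κ₀ e' := hNC.mono (min_le_left _ _)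
  have hcen := cenDN_of hD hκ₀ he'0 he'1 hNC' hcls
  set κ₁ : ℝ := min κ₀ (e' / 100) / 100 with hκ₁
  have hκ₁0 : 0 < κ₁ := by
    have : 0 < min κ₀ (e' / 100) := lt_min hκ₀ (by positivity)
    positivity
  refine ⟨min (κ₁ / 2) (min (e' / 8) (1 / 100)), by positivity, ?_⟩
  intro κ hκ hκ2 A
  have h1 : κ ≤ κ₁ / 2 := hκ2.trans (min_le_left _ _)
  have h2 : κ ≤ e' / 8 := hκ2.trans ((min_le_right _ _).trans (min_le_left _ _))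
  have h3 : κ ≤ 1 / 100 := hκ2.trans ((min_le_right _ _).trans (min_le_right _ _))
  refine bil_cen hF hHB hκ₁0 he'0 he'1 hcen hκ h1 h2 h3 (Cf := 4) (by norm_num) 1 ?_ A
  intro X hX a
  rw [pow_one]
  exact (hcls X hX _ _ (pow_le_self (by linarith) (by linarith))).bound a

/-- the class of the von Mangoldt coefficient -/
theorem hcls_lamb (η : ℝ) : Hcls (fun _ a => (VR.lamb a : ℂ)) η := by
  intro X hX y₁ y₂ hy
  have h := VR.classG_lamb (z := X ^ η) (y₁ := y₁) (by linarith : (1 : ℝ) ≤ X) hy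
  have hL : 0 ≤ Real.log X := Real.log_nonneg (by linarith)
  exact h.mono le_rfl (by linarith)

/-- the class of the product coefficient -/
theorem hcls_cq (η : ℝ) :
    Hcls (fun X a => (VR.cq (X ^ (1 / 3 : ℝ)) (X ^ (1 / 3 : ℝ)) a : ℂ)) η := by
  intro X hX y₁ y₂ hy
  exact VR.classG_cq (z := X ^ η) (y₁ := y₁) (by linarith : (1 : ℝ) ≤ X) hy

/-- the non-cube input in the centre for both coefficient sequences -/
def NCcenGoal : Prop := ∀ η : ℝ, 0 < η → η ≤ 1 / 3 →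
  (∃ κ₀ e : ℝ, 0 < κ₀ ∧ 0 < e ∧ NCcen (fun _ a => (VR.lamb a : ℂ)) η κ₀ e) ∧
  (∃ κ₀ e : ℝ, 0 < κ₀ ∧ 0 < e ∧
    NCcen (fun X a => (VR.cq (X ^ (1 / 3 : ℝ)) (X ^ (1 / 3 : ℝ)) a : ℂ)) η κ₀ e)

theorem centre_of (hNC : NCcenGoal) (hF : FineHyp) (hHB : HBsq) (hD : DISP.DispStmt)
    (η : ℝ) (hη : 0 < η) (hη3 : η ≤ 1 / 3) : ∃ κ₀ : ℝ, 0 < κ₀ ∧ ∀ κ : ℝ, 0 < κ → κ ≤ κ₀ →
    TIIPH wf κ η ∧ TIIBH wf κ η := by
  obtain ⟨⟨κp, ep, h1, h2, hp⟩, κb, eb, h3, h4, hb⟩ := hNC η hη hη3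
  obtain ⟨k1, hk1, H1⟩ := cen_one hD hF hHB h1 h2 hp (hcls_lamb η)
  obtain ⟨k2, hk2, H2⟩ := cen_one hD hF hHB h3 h4 hb (hcls_cq η)
  refine ⟨min k1 k2, lt_min hk1 hk2, fun κ hκ hκ2 => ⟨?_, ?_⟩⟩
  · intro A
    obtain ⟨C, hC, h⟩ := H1 κ hκ (hκ2.trans (min_le_left _ _)) A
    exact ⟨C, hC, fun X hX β hβ1 hβ x _ hx =>
      h X hX β hβ1 (fun b hb => ⟨(hβ b hb).1, (hβ b hb).2.1⟩) x hx⟩
  · intro A
    obtain ⟨C, hC, h⟩ := H2 κ hκ (hκ2.trans (min_le_right _ _)) A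
    exact ⟨C, hC, fun X hX β hβ1 hβ x _ hx =>
      h X hX β hβ1 (fun b hb => ⟨(hβ b hb).1, (hβ b hb).2.1⟩) x hx⟩

/-- **The centre goal** from the non-cube bounds in the centre. -/
theorem centreGoal_of (hNC : NCcenGoal) : CentreGoal := fun hD η hη hη3 =>
  centre_of hNC FINE.fineHyp hbsq hD η hη hη3

end Vale.Agent.P006.TIIC
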