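import Vale.Agent.P006.DN.NCfam
import Vale.Agent.P006.DN.EM
import Vale.Agent.P006.DN.Blocks
import Vale.Agent.P006.DISP.Main
import Vale.Agent.P006.DISP.Stmt
import Mathlib.Analysis.Calculus.BumpFunction.InnerProduct

/-!
P006, block TIIC (helper577): the dispersion theorem for the family of blocks `⌊N a / 2^l⌋ = s`.
-/

namespace Vale.Agent.P006.TIIC

open scoped Classical
open Finset DISP DN

/-- a bump function exists -/
theorem exists_bump : ∃ V0 : ℝ → ℝ, Bump V0 := by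
  let f : ContDiffBump (1 / 2 : ℝ) := ⟨1 / 2, 1, by norm_num, by norm_num⟩
  refine ⟨f, f.contDiff, fun x => f.nonneg, fun x => f.le_one, ?_, ?_⟩
  · intro x h0 h1
    apply f.one_of_mem_closedBall
    rw [Metric.mem_closedBall, Real.dist_eq, abs_le]
    change -(1 / 2) ≤ x - 1 / 2 ∧ x - 1 / 2 ≤ 1 / 2
    constructor <;> linarith
  · intro x hx
    have h1 : x ∈ Function.support f := hx
    rw [f.support_eq, Metric.mem_ball, Real.dist_eq, abs_lt] at h1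
    change -1 < x - 1 / 2 ∧ x - 1 / 2 < 1 at h1
    constructor <;> linarith

theorem N_gcd_le {a1 a2 : O} (h1 : Primary a1) (h2 : Primary a2) :
    (N (EuclideanDomain.gcd a1 a2) : ℝ) ≤ ∑ d ∈ dvs a1 ∩ dvs a2, (N d : ℝ) := by
  set g := EuclideanDomain.gcd a1 a2 with hg
  have hg1 : g ∣ a1 := EuclideanDomain.gcd_dvd_left _ _
  have hg2 : g ∣ a2 := EuclideanDomain.gcd_dvd_right _ _
  have hl : ¬ lam ∣ g := fun h => h1.not_lam_dvd (h.trans hg1)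
  obtain ⟨u, hu, hp⟩ := exists_unit_mul_primary hl
  have hN : N (u * g) = N g := by
    rw [N_mul, show N u = 1 from ?_, one_mul]
    exact isUnit_iff_N.1 hu
  have hmem : u * g ∈ dvs a1 ∩ dvs a2 := by
    rw [mem_inter, mem_dvs h1.ne_zero, mem_dvs h2.ne_zero]
    exact ⟨⟨hp, (hu.mul_left_dvd).2 hg1⟩, ⟨hp, (hu.mul_left_dvd).2 hg2⟩⟩
  calc (N g : ℝ) = (N (u * g) : ℝ) := by rw [hN]
    _ ≤ _ := single_le_sum (f := fun d => (N d : ℝ)) (fun _ _ => Nat.cast_nonneg _) hmem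

theorem blk_apply (α : O → ℂ) (l s : ℕ) (a : O) :
    blk α l s a = if N a / 2 ^ l = s then α a else 0 := rfl

theorem norm_blk_le {α : O → ℂ} (l s : ℕ) (a : O) : ‖blk α l s a‖ ≤ ‖α a‖ := by
  rw [blk_apply]; split_ifs
  · exact le_rfl
  · rw [norm_zero]; exact norm_nonneg _

/-- the product of the two block coefficients, summed over the blocks -/
theorem sum_blk_mul {α : O → ℂ} (l : ℕ) (S : Finset ℕ) (a1 a2 : O) :
    ∑ s ∈ S, ‖blk α l s a1‖ * ‖blk α l s a2‖ ≤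
      if N a1 / 2 ^ l = N a2 / 2 ^ l then ‖α a1‖ * ‖α a2‖ else 0 := by
  by_cases h : N a1 / 2 ^ l = N a2 / 2 ^ l
  · rw [if_pos h]
    have e : ∀ s ∈ S, ‖blk α l s a1‖ * ‖blk α l s a2‖ =
        if N a1 / 2 ^ l = s then ‖α a1‖ * ‖α a2‖ else 0 := by
      intro s _
      rw [blk_apply, blk_apply, ← h]
      split_ifs
      · rfl
      · rw [norm_zero, zero_mul]
    rw [sum_congr rfl e, sum_ite_eq]
    split_ifs
    · exact le_rfl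
    · positivity
  · rw [if_neg h]
    refine le_of_eq (sum_eq_zero fun s _ => ?_)
    rw [blk_apply, blk_apply]
    by_cases h1 : N a1 / 2 ^ l = s
    · have h2 : ¬ N a2 / 2 ^ l = s := fun h2 => h (h1.trans h2.symm)
      rw [if_neg h2, norm_zero, mul_zero]
    · rw [if_neg h1, norm_zero, zero_mul]

theorem sum_blk_sq {α : O → ℂ} (l : ℕ) (S : Finset ℕ) (T : Finset O) :
    ∑ s ∈ S, ∑ a ∈ T, ‖blk α l s a‖ ^ 2 ≤ ∑ a ∈ T, ‖α a‖ ^ 2 := by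
  rw [sum_comm]
  refine sum_le_sum fun a _ => ?_
  have h := sum_blk_mul (α := α) l S a a
  rw [if_pos rfl] at h
  calc _ = ∑ s ∈ S, ‖blk α l s a‖ * ‖blk α l s a‖ := sum_congr rfl fun s _ => by ring
    _ ≤ ‖α a‖ * ‖α a‖ := h
    _ = _ := by ring

theorem emk_nonneg (a1 a2 : O) : 0 ≤ emk a1 a2 := by unfold emk; positivity

theorem sum_blk_emk {α : O → ℂ} (l : ℕ) (S : Finset ℕ) (Y : ℝ) :
    ∑ s ∈ S, (∑ a1 ∈ SPB Y, ∑ a2 ∈ SPB Y,
      if a1 = a2 then 0 else ‖blk α l s a1‖ * ‖blk α l s a2‖ * emk a1 a2) ≤ EMf α Y l := by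
  rw [sum_comm, EMf]
  refine sum_le_sum fun a1 h1 => ?_
  rw [sum_comm]
  refine sum_le_sum fun a2 h2 => ?_
  have p1 := (mem_SPB.1 h1).1.1
  have p2 := (mem_SPB.1 h2).1.1
  by_cases h : a1 = a2
  · simp only [h, if_true, sum_const_zero]
    rw [if_neg (by simp)]
  · simp only [if_neg h]
    rw [← sum_mul]
    have h3 := sum_blk_mul (α := α) l S a1 a2
    by_cases hb : N a1 / 2 ^ l = N a2 / 2 ^ l
    · rw [if_pos hb] at h3
      rw [if_pos ⟨h, hb⟩]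
      calc (∑ s ∈ S, ‖blk α l s a1‖ * ‖blk α l s a2‖) * emk a1 a2
          ≤ (‖α a1‖ * ‖α a2‖) * emk a1 a2 :=
            mul_le_mul_of_nonneg_right h3 (emk_nonneg _ _)
        _ ≤ (‖α a1‖ * ‖α a2‖) * ((∑ d ∈ dvs a1 ∩ dvs a2, (N d : ℝ)) / Real.sqrt (N a1 * N a2) *
              (tau a1 * tau a2)) := by
            unfold emk
            have := N_gcd_le p1 p2
            gcongr
        _ = _ := by ring
    · rw [if_neg hb] at h3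
      rw [if_neg (fun hh => hb hh.2)]
      have h4 : ∑ s ∈ S, ‖blk α l s a1‖ * ‖blk α l s a2‖ = 0 :=
        le_antisymm h3 (sum_nonneg fun _ _ => by positivity)
      rw [h4, zero_mul]

theorem sum_blk_R {α : O → ℂ} {G : ℝ} (hG : 0 ≤ G) (hα : ∀ a, ‖α a‖ ≤ G) (l : ℕ)
    (S : Finset ℕ) (T : Finset O) {R : O → O → ℝ} (hR : ∀ a1 a2, 0 ≤ R a1 a2) :
    ∑ s ∈ S, (∑ a1 ∈ T, ∑ a2 ∈ T, ‖blk α l s a1‖ * ‖blk α l s a2‖ * R a1 a2) ≤
      G ^ 2 * ∑ a1 ∈ T, ∑ a2 ∈ T, R a1 a2 := by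
  rw [sum_comm, mul_sum]
  refine sum_le_sum fun a1 _ => ?_
  rw [sum_comm, mul_sum]
  refine sum_le_sum fun a2 _ => ?_
  rw [← sum_mul]
  refine mul_le_mul_of_nonneg_right ?_ (hR _ _)
  refine (sum_blk_mul (α := α) l S a1 a2).trans ?_
  split_ifs
  · rw [pow_two]
    exact mul_le_mul (hα _) (hα _) (norm_nonneg _) hG
  · positivity

/-- each block is a dispersion sum -/
theorem block_disp {V0 : ℝ → ℝ} (hV : Bump V0) {ξ u A B : ℝ} (hξ : 0 < ξ) (hξ1 : ξ ≤ 1)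
    (hu : u ≤ 2) (hB : 0 < B) (W : O) (α : O → ℂ) (l s : ℕ) :
    ∑ b ∈ (SPB ((u + ξ) * B)).filter (fun b => IsCoprime b W ∧ u * B < (N b : ℝ)),
      ‖∑ a ∈ (SPB (2 * A)).filter (fun a => N a / 2 ^ l = s), α a * wf (a * b)‖ ^ 2 ≤
      DS (Vx V0 ξ u) B W (blk α l s) A := by
  have h := block_le_DS (V := Vx V0 ξ u) (Vx_nonneg hV ξ u) (B := B) W (blk α l s) A
    ((SPB ((u + ξ) * B)).filter (fun b => IsCoprime b W ∧ u * B < (N b : ℝ))) ?_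
  · refine le_trans (le_of_eq ?_) h
    refine sum_congr rfl fun b _ => ?_
    congr 2
    rw [sum_filter]
    refine sum_congr rfl fun a _ => ?_
    rw [blk_apply]
    split_ifs
    · rfl
    · rw [zero_mul]
  · intro b hb
    rw [mem_filter, mem_SPB] at hb
    obtain ⟨⟨⟨h1, h2⟩, h3⟩, h4, h5⟩ := hb
    refine ⟨⟨h1, h3⟩, h4, ?_, ?_⟩
    · have : (u + ξ) * B ≤ 4 * B := by nlinarith
      linarith
    · refine le_of_eq (Vx_one hV hξ ?_ ?_).symm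
      · rw [le_div_iff₀ hB]; exact h5.le
      · rw [div_le_iff₀ hB]; exact h2

theorem adm_blk {W : O} {A : ℝ} {α : O → ℂ} (h : Adm W A α) (l s : ℕ) : Adm W A (blk α l s) :=
  ⟨fun a ha => h.supp a (by
    intro h0
    apply ha
    rw [blk_apply, h0, ite_self])⟩

theorem NCf_nonneg {A B : ℝ} (hA : 0 < A) (hB : 0 < B) (α : O → ℂ) : 0 ≤ NCf α A B := by
  rw [NCf]
  exact mul_nonneg (by positivity)
    (sum_nonneg fun j _ => tsum_nonneg fun κ => ncTerm_nonneg hA hB α j κ)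

/-- **the dispersion theorem for the family of blocks**, general window -/
theorem fam_disp_gen (hD : DispStmt) : ∃ C0 : ℝ, 0 ≤ C0 ∧ ∀ W : O, InP W → ∀ ε : ℝ, 0 < ε →
    ∃ C c : ℝ, 0 ≤ C ∧ 0 ≤ c ∧
    ∀ ξ u A B G : ℝ, 0 < ξ → ξ ≤ 1 → 1 ≤ u → u ≤ 2 → 1 ≤ A → 1 ≤ B → 0 ≤ G →
    ∀ (l : ℕ) (α : O → ℂ), (∀ a, ‖α a‖ ≤ G) → Adm W A α →
    FamS wf α W A (u * B) ((u + ξ) * B) l ≤
      C0 * dens W * (ξ * B) * ∑ a ∈ SPB (2 * A), ‖α a‖ ^ 2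
      + C0 * ξ ^ (-(1 / 2) : ℝ) * B * EMf α (2 * A) l
      + G ^ 2 * (C * ξ ^ (-c) * (A * B) ^ ε *
          (A ^ (11 / 6 : ℝ) * B ^ (1 / 3 : ℝ) + (A * B) ^ (2 / 3 : ℝ)))
      + C * ξ ^ (-c) * ∑ s ∈ range (⌊2 * A⌋₊ + 1), NCf (blk α l s) A B := by
  obtain ⟨V0, hV⟩ := exists_bump
  obtain ⟨C0, hC0, hD⟩ := hD V0 hV
  refine ⟨C0, hC0, fun W hW ε hε => ?_⟩
  obtain ⟨C, c, hC, hc, hD⟩ := hD W hW ε hε
  refine ⟨C, c, hC, hc, ?_⟩
  intro ξ u A B G hξ hξ1 hu1 hu2 hA hB hG l α hα hadm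
  obtain ⟨R, hR, hRs, hD⟩ := hD ξ u A B hξ hξ1 hu1 hu2 hA hB
  have hd := dens_nonneg W
  have h1 : ∀ s ∈ range (⌊2 * A⌋₊ + 1),
      ∑ b ∈ (SPB ((u + ξ) * B)).filter (fun b => IsCoprime b W ∧ u * B < (N b : ℝ)),
      ‖∑ a ∈ (SPB (2 * A)).filter (fun a => N a / 2 ^ l = s), α a * wf (a * b)‖ ^ 2 ≤
      C0 * dens W * (ξ * B) * ∑ a ∈ SPB (2 * A), ‖blk α l s a‖ ^ 2
            + C0 * ξ ^ (-(1 / 2) : ℝ) * B *
              (∑ a1 ∈ SPB (2 * A), ∑ a2 ∈ SPB (2 * A),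
                if a1 = a2 then 0 else ‖blk α l s a1‖ * ‖blk α l s a2‖ * emk a1 a2)
            + ∑ a1 ∈ SPB (2 * A), ∑ a2 ∈ SPB (2 * A), ‖blk α l s a1‖ * ‖blk α l s a2‖ * R a1 a2
            + C * ξ ^ (-c) * NCf (blk α l s) A B := fun s _ =>
    (block_disp hV hξ hξ1 hu2 (by linarith) W α l s).trans (hD _ (adm_blk hadm l s))
  rw [FamS]
  refine (sum_le_sum h1).trans ?_
  rw [sum_add_distrib, sum_add_distrib, sum_add_distrib, ← mul_sum, ← mul_sum, ← mul_sum]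
  have e1 := sum_blk_sq (α := α) l (range (⌊2 * A⌋₊ + 1)) (SPB (2 * A))
  have e2 := sum_blk_emk (α := α) l (range (⌊2 * A⌋₊ + 1)) (2 * A)
  have e3 := sum_blk_R hG hα l (range (⌊2 * A⌋₊ + 1)) (SPB (2 * A)) hR
  have e4 := mul_le_mul_of_nonneg_left hRs (sq_nonneg G)
  have hp : 0 ≤ C0 * ξ ^ (-(1 / 2) : ℝ) * B := by positivity
  have hq : 0 ≤ C0 * dens W * (ξ * B) := by positivity
  have e5 := mul_le_mul_of_nonneg_left e1 hq
  have e6 := mul_le_mul_of_nonneg_left e2 hp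
  linarith

/-- **the dispersion theorem for the family of blocks**, the window `(B, 2B]`, `W = 1` -/
theorem fam_disp (hD : DISP.DispStmt) {ε : ℝ} (hε : 0 < ε) : ∃ C : ℝ, 0 ≤ C ∧
    ∀ (A B G : ℝ) (l : ℕ) (α : O → ℂ), 1 ≤ A → 1 ≤ B → 0 ≤ G → (∀ a, ‖α a‖ ≤ G) →
    (∀ a, α a ≠ 0 → InP a ∧ A < (N a : ℝ) ∧ (N a : ℝ) ≤ 2 * A) →
    FamS wf α 1 A (1 * B) ((1 + 1) * B) l ≤
      C * (B * ∑ a ∈ SPB (2 * A), ‖α a‖ ^ 2 + B * EMf α (2 * A) l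
        + G ^ 2 * ((A * B) ^ ε * (A ^ (11 / 6 : ℝ) * B ^ (1 / 3 : ℝ) + (A * B) ^ (2 / 3 : ℝ)))
        + ∑ s ∈ range (⌊2 * A⌋₊ + 1), DISP.NCf (DN.blk α l s) A B) := by
  obtain ⟨C0, hC0, hD⟩ := fam_disp_gen hD
  obtain ⟨C, c, hC, -, hD⟩ := hD 1 ⟨primary_one, squarefree_one⟩ ε hε
  refine ⟨C0 + C, by positivity, ?_⟩
  intro A B G l α hA hB hG hα hs
  have h := hD 1 1 A B G one_pos le_rfl le_rfl (by norm_num) hA hB hG l α hα
    ⟨fun a ha => ⟨(hs a ha).1, isCoprime_one_right, (hs a ha).2⟩⟩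
  simp only [Real.one_rpow, mul_one] at h ⊢
  refine h.trans ?_
  rw [dens_one, mul_one, one_mul]
  have hS : 0 ≤ ∑ a ∈ SPB (2 * A), ‖α a‖ ^ 2 := sum_nonneg fun _ _ => by positivity
  have hE : 0 ≤ EMf α (2 * A) l := EMf_nonneg _ _ _
  have hN : 0 ≤ ∑ s ∈ range (⌊2 * A⌋₊ + 1), NCf (blk α l s) A B :=
    sum_nonneg fun s _ => NCf_nonneg (by linarith) (by linarith) _
  have hR : 0 ≤ G ^ 2 * ((A * B) ^ ε *
    (A ^ (11 / 6 : ℝ) * B ^ (1 / 3 : ℝ) + (A * B) ^ (2 / 3 : ℝ))) := by positivity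
  have x1 : 0 ≤ C * (B * ∑ a ∈ SPB (2 * A), ‖α a‖ ^ 2) := by positivity
  have x2 : 0 ≤ C * (B * EMf α (2 * A) l) := by positivity
  have x3 := mul_nonneg hC0 hR
  have x4 := mul_nonneg hC0 hN
  linarith

end Vale.Agent.P006.TIIC
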