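import Vale.Agent.P006.TIIC.Chain
import Vale.Agent.P006.DN.TII

/-!
P006, block TIIC (helper570): the centre theorem from FINE, the cubic large sieve and CenDN.
-/

namespace Vale.Agent.P006.TIIC

open Finset H611 DN

/-- the large sieve case: `2^(i+j) ≤ 4 X^{1-κ}` with both sides `≤ 4 X^{2/3}` -/
theorem case_HB' (hHB : HBsq) {κ : ℝ} (hκ : 0 < κ) (A : ℕ) : ∃ C : ℝ, 0 ≤ C ∧
    ∀ X G : ℝ, 3 ≤ X → 1 ≤ G → ∀ (α : O → ℂ) (i j l : ℕ), (∀ a, ‖α a‖ ≤ G) →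
      (2 : ℝ) ^ (i + j) ≤ 4 * X ^ (1 - κ) → (2 : ℝ) ^ i ≤ 4 * X ^ (2 / 3 : ℝ) →
      (2 : ℝ) ^ j ≤ 4 * X ^ (2 / 3 : ℝ) → (2 : ℝ) ^ (i + j) ≤ X →
      2 ^ j * FS (fun a b => wf (a * b)) α i j l * Real.log X ^ A ≤
        C * G ^ 2 * X ^ (5 / 3 : ℝ) := by
  obtain ⟨C₃, hC₃, hHB⟩ := hHB (κ / 2) (by positivity)
  set Lc := ((A + 1) / (κ / 2)) ^ A with hLc
  have hLc0 : 0 ≤ Lc := by positivity
  refine ⟨2 * (C₃ * 4 ^ (κ / 2 : ℝ) * 22 * 8 * 4) * Lc +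
    2 * (512 * (4 : ℝ) ^ (5 / 3 : ℝ)) * Lc, by positivity, ?_⟩
  intro X G hX hG α i j l hα hij hi hj hijX
  have hX0 : 0 < X := by linarith
  have hX1 : 1 ≤ X := by linarith
  have hL : 0 ≤ Real.log X := Real.log_nonneg hX1
  have hlog : Real.log X ^ A ≤ Lc * X ^ (κ / 2) := log_pow_le (by positivity) A hX1
  have hG0 : 0 ≤ G := by linarith
  have hP0 : (0 : ℝ) < 2 ^ (i + j) := by positivity
  -- Gauss sum part
  set Bd := C₃ * ((2 : ℝ) ^ (i + 1) * 2 ^ (j + 1)) ^ (κ / 2) *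
    ((2 : ℝ) ^ (i + 1) + 2 ^ (j + 1) + ((2 : ℝ) ^ (i + 1) * 2 ^ (j + 1)) ^ (2 / 3 : ℝ)) with hBd
  have h1 : FS Dg α i j l ≤ Bd * ∑ a ∈ DB i, ‖α a‖ ^ 2 :=
    FS_Dg_le (by positivity) (hHB (2 ^ (i + 1)) (2 ^ (j + 1)) (one_le_pow₀ (by norm_num))
      (one_le_pow₀ (by norm_num)))
  have h1' : FS Dg α i j l ≤ Bd * (8 * 2 ^ i * G ^ 2) :=
    h1.trans (mul_le_mul_of_nonneg_left (sum_DB_sq_le hα i) (by positivity))
  have hprod : (2 : ℝ) ^ (i + 1) * 2 ^ (j + 1) = 4 * 2 ^ (i + j) := by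
    rw [pow_succ, pow_succ, pow_add]; ring
  have hBd1 : Bd ≤ C₃ * (4 ^ (κ / 2 : ℝ) * X ^ (κ / 2)) * (22 * X ^ (2 / 3 : ℝ)) := by
    rw [hBd, hprod]
    have e1 : (4 * (2 : ℝ) ^ (i + j)) ^ (κ / 2) ≤ 4 ^ (κ / 2 : ℝ) * X ^ (κ / 2) := by
      rw [Real.mul_rpow (by norm_num) hP0.le]
      gcongr
    have e2 : (4 * (2 : ℝ) ^ (i + j)) ^ (2 / 3 : ℝ) ≤ 4 * X ^ (2 / 3 : ℝ) := by
      rw [Real.mul_rpow (by norm_num) hP0.le]
      gcongr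
      calc (4 : ℝ) ^ (2 / 3 : ℝ) ≤ 4 ^ (1 : ℝ) :=
            Real.rpow_le_rpow_of_exponent_le (by norm_num) (by norm_num)
        _ = 4 := Real.rpow_one 4
    have e4 : (2 : ℝ) ^ (i + 1) + 2 ^ (j + 1) + (4 * (2 : ℝ) ^ (i + j)) ^ (2 / 3 : ℝ) ≤
        22 * X ^ (2 / 3 : ℝ) := by
      have e5 : (0 : ℝ) ≤ X ^ (2 / 3 : ℝ) := by positivity
      rw [pow_succ, pow_succ]
      linarith
    gcongr
  have hFS1 : 2 ^ j * FS Dg α i j l * Real.log X ^ A ≤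
      (C₃ * 4 ^ (κ / 2 : ℝ) * 22 * 8 * 4) * Lc * G ^ 2 * X ^ (5 / 3 : ℝ) := by
    calc 2 ^ j * FS Dg α i j l * Real.log X ^ A
        ≤ 2 ^ j * ((C₃ * (4 ^ (κ / 2 : ℝ) * X ^ (κ / 2)) * (22 * X ^ (2 / 3 : ℝ))) *
            (8 * 2 ^ i * G ^ 2)) * (Lc * X ^ (κ / 2)) := by
          have : 0 ≤ FS Dg α i j l := FS_nonneg _ _ _ _ _
          gcongr
          exact h1'.trans (by gcongr)
      _ = (C₃ * 4 ^ (κ / 2 : ℝ) * 22 * 8) * Lc * G ^ 2 * (X ^ (κ / 2) * X ^ (κ / 2) *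
            X ^ (2 / 3 : ℝ)) * 2 ^ (i + j) := by rw [pow_add]; ring
      _ ≤ (C₃ * 4 ^ (κ / 2 : ℝ) * 22 * 8) * Lc * G ^ 2 * (X ^ (κ / 2) * X ^ (κ / 2) *
            X ^ (2 / 3 : ℝ)) * (4 * X ^ (1 - κ)) := by gcongr
      _ = (C₃ * 4 ^ (κ / 2 : ℝ) * 22 * 8 * 4) * Lc * G ^ 2 * (X ^ (κ / 2) * X ^ (κ / 2) *
            X ^ (2 / 3 : ℝ) * X ^ (1 - κ)) := by ring
      _ = _ := by
          rw [← Real.rpow_add hX0, ← Real.rpow_add hX0, ← Real.rpow_add hX0]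
          congr 2
          ring
  -- model part
  have h2 := FS_le_trivial (D := Dm) (i := i) (j := j) (l := l)
    (M := ((2 : ℝ) ^ i) ^ (-(1 / 6) : ℝ) * ((2 : ℝ) ^ j) ^ (-(1 / 6) : ℝ)) hG0 (by positivity)
    (fun a ha b hb => norm_Dm_le ha hb) hα
  have hFS2 : 2 ^ j * FS Dm α i j l * Real.log X ^ A ≤
      (512 * (4 : ℝ) ^ (5 / 3 : ℝ)) * Lc * G ^ 2 * X ^ (5 / 3 : ℝ) := by
    have hP : ((2 : ℝ) ^ i) ^ (-(1 / 6) : ℝ) * ((2 : ℝ) ^ j) ^ (-(1 / 6) : ℝ) =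
        ((2 : ℝ) ^ (i + j)) ^ (-(1 / 6) : ℝ) := by
      rw [pow_add, Real.mul_rpow (by positivity) (by positivity)]
    have hP2 : ((2 : ℝ) ^ (i + j)) ^ 2 * (((2 : ℝ) ^ (i + j)) ^ (-(1 / 6) : ℝ)) ^ 2 =
        ((2 : ℝ) ^ (i + j)) ^ (5 / 3 : ℝ) := by
      rw [← Real.rpow_natCast ((2 : ℝ) ^ (i + j)) 2,
        ← Real.rpow_natCast (((2 : ℝ) ^ (i + j)) ^ (-(1 / 6) : ℝ)) 2,
        ← Real.rpow_mul hP0.le, ← Real.rpow_add hP0]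
      norm_num
    have hP3 : ((2 : ℝ) ^ (i + j)) ^ (5 / 3 : ℝ) ≤ (4 * X ^ (1 - κ)) ^ (5 / 3 : ℝ) := by
      gcongr
    have hP4 : (4 * X ^ (1 - κ)) ^ (5 / 3 : ℝ) * X ^ (κ / 2) ≤
        (4 : ℝ) ^ (5 / 3 : ℝ) * X ^ (5 / 3 : ℝ) := by
      rw [Real.mul_rpow (by norm_num) (by positivity), ← Real.rpow_mul hX0.le, mul_assoc,
        ← Real.rpow_add hX0]
      refine mul_le_mul_of_nonneg_left (Real.rpow_le_rpow_of_exponent_le hX1 ?_) (by positivity)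
      nlinarith
    calc 2 ^ j * FS Dm α i j l * Real.log X ^ A
        ≤ 2 ^ j * (8 * 2 ^ j * (8 * 2 ^ i * (G * (((2 : ℝ) ^ i) ^ (-(1 / 6) : ℝ) *
            ((2 : ℝ) ^ j) ^ (-(1 / 6) : ℝ)))) ^ 2) * (Lc * X ^ (κ / 2)) := by gcongr
      _ = 512 * Lc * G ^ 2 * (((2 : ℝ) ^ (i + j)) ^ 2 *
            (((2 : ℝ) ^ (i + j)) ^ (-(1 / 6) : ℝ)) ^ 2) * X ^ (κ / 2) := by
          rw [hP, pow_add]; ring
      _ = 512 * Lc * G ^ 2 * (((2 : ℝ) ^ (i + j)) ^ (5 / 3 : ℝ) * X ^ (κ / 2)) := by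
          rw [hP2]; ring
      _ ≤ 512 * Lc * G ^ 2 * ((4 * X ^ (1 - κ)) ^ (5 / 3 : ℝ) * X ^ (κ / 2)) := by gcongr
      _ ≤ 512 * Lc * G ^ 2 * ((4 : ℝ) ^ (5 / 3 : ℝ) * X ^ (5 / 3 : ℝ)) := by gcongr
      _ = _ := by ring
  have h3 : FS (fun a b => wf (a * b)) α i j l ≤ 2 * FS Dg α i j l + 2 * FS Dm α i j l :=
    FS_sub_le fun a ha b hb => wf_mul_eq (inP_of_mem_DB ha) (inP_of_mem_DB hb)
  have hLA : 0 ≤ Real.log X ^ A := by positivity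
  calc 2 ^ j * FS (fun a b => wf (a * b)) α i j l * Real.log X ^ A
      ≤ 2 ^ j * (2 * FS Dg α i j l + 2 * FS Dm α i j l) * Real.log X ^ A := by gcongr
    _ = 2 * (2 ^ j * FS Dg α i j l * Real.log X ^ A) +
        2 * (2 ^ j * FS Dm α i j l * Real.log X ^ A) := by ring
    _ ≤ 2 * ((C₃ * 4 ^ (κ / 2 : ℝ) * 22 * 8 * 4) * Lc * G ^ 2 * X ^ (5 / 3 : ℝ)) +
        2 * ((512 * (4 : ℝ) ^ (5 / 3 : ℝ)) * Lc * G ^ 2 * X ^ (5 / 3 : ℝ)) := by gcongr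
    _ = _ := by ring

/-- from a bound of `FS` to a bound of `TL` -/
theorem TL_of_FS {α β : O → ℂ} {D : O → O → ℂ} {X x C G : ℝ} {i j l A : ℕ} (hX : 3 ≤ X)
    (hC : 0 ≤ C) (hG : 0 ≤ G) (hβ : ∀ b, ‖β b‖ ≤ 1)
    (h : 2 ^ j * FS D α i j l * Real.log X ^ (2 * A) ≤ C * G ^ 2 * X ^ (5 / 3 : ℝ)) :
    TL D α β x i j l ≤ √(8 * C) * G * X ^ (5 / 6 : ℝ) / Real.log X ^ A := by
  have hX0 : 0 < X := by linarith
  have hL1 : 1 ≤ Real.log X := by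
    rw [Real.le_log_iff_exp_le hX0]
    exact (Real.exp_one_lt_d9.le.trans (by norm_num)).trans hX
  set L := Real.log X with hL
  have hLA : 0 < L ^ (2 * A) := by positivity
  have h1 : FS D α i j l ≤ C * G ^ 2 * X ^ (5 / 3 : ℝ) / (2 ^ j * L ^ (2 * A)) := by
    rw [le_div_iff₀ (by positivity)]
    linarith
  refine (TL_le_cs hβ).trans ?_
  have h2 : √(8 * 2 ^ j) * √(FS D α i j l) ≤
      √(8 * 2 ^ j) * √(C * G ^ 2 * X ^ (5 / 3 : ℝ) / (2 ^ j * L ^ (2 * A))) :=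
    mul_le_mul_of_nonneg_left (Real.sqrt_le_sqrt h1) (Real.sqrt_nonneg _)
  refine h2.trans (le_of_eq ?_)
  rw [← Real.sqrt_mul (by positivity)]
  have h3 : (8 : ℝ) * 2 ^ j * (C * G ^ 2 * X ^ (5 / 3 : ℝ) / (2 ^ j * L ^ (2 * A))) =
      (8 * C) * (G * X ^ (5 / 6 : ℝ) / L ^ A) ^ 2 := by
    have h4 : X ^ (5 / 3 : ℝ) = (X ^ (5 / 6 : ℝ)) ^ 2 := by
      rw [← Real.rpow_natCast, ← Real.rpow_mul hX0.le]; norm_num
    rw [h4]
    have h5 : (2 : ℝ) ^ j ≠ 0 := by positivity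
    have h6 : L ≠ 0 := by positivity
    rw [mul_comm 2 A, pow_mul L A 2]
    field_simp
  rw [h3, Real.sqrt_mul (by positivity), Real.sqrt_sq (by positivity)]
  ring

/-- the exponents of the fine range -/
structure Ex (κ ε₀ p q r h : ℝ) : Prop where
  hκ : 0 < κ
  hκ1 : κ ≤ ε₀ / 8
  hκ2 : κ ≤ 1 / 100
  hε : 0 < ε₀
  hε1 : ε₀ ≤ 1
  hp : 0 ≤ p
  hq : 0 ≤ q
  hpq : p + q ≤ 1
  hp1 : p ≤ 1 / 2 + κ
  hp2 : 1 / 2 - κ ≤ p + h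
  hr : r ≤ p - ε₀
  hh : h ≤ 1 / 200

variable {X κ ε₀ p q r h : ℝ}

theorem t1_le (hX : 1 ≤ X) (H : Ex κ ε₀ p q r h) :
    X ^ (q + p / 2) ≤ X ^ (5 / 6 - 1 / 25 : ℝ) := by
  apply Real.rpow_le_rpow_of_exponent_le hX
  linarith [H.hpq, H.hp2, H.hh, H.hκ2]

theorem triv_le (hX : 1 ≤ X) (H : Ex κ ε₀ p q r h) (hr : r ≤ p - 1 / 6 - 1 / 100) :
    X ^ q * (X ^ r + X ^ (p / 2)) ≤ 2 * X ^ (5 / 6 - ε₀ / 100) := by
  have hX0 : 0 < X := by linarith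
  rw [mul_add, ← Real.rpow_add hX0, ← Real.rpow_add hX0]
  have h1 : X ^ (q + r) ≤ X ^ (5 / 6 - ε₀ / 100) := by
    apply Real.rpow_le_rpow_of_exponent_le hX
    linarith [H.hpq, H.hε1]
  have h2 : X ^ (q + p / 2) ≤ X ^ (5 / 6 - ε₀ / 100) := by
    apply Real.rpow_le_rpow_of_exponent_le hX
    linarith [H.hpq, H.hp2, H.hh, H.hκ2, H.hε1]
  linarith

theorem model_le (hX : 1 ≤ X) (H : Ex κ ε₀ p q r h) :
    (X ^ p) ^ (-(1 / 6) : ℝ) * (X ^ q) ^ (-(1 / 6) : ℝ) * X ^ q * (X ^ r + X ^ (p / 2)) ≤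
      2 * X ^ (5 / 6 - ε₀ / 100) := by
  have hX0 : 0 < X := by linarith
  rw [← Real.rpow_mul hX0.le, ← Real.rpow_mul hX0.le, ← Real.rpow_add hX0, ← Real.rpow_add hX0,
    mul_add, ← Real.rpow_add hX0, ← Real.rpow_add hX0]
  have h1 : X ^ (p * -(1 / 6) + q * -(1 / 6) + q + r) ≤ X ^ (5 / 6 - ε₀ / 100) := by
    apply Real.rpow_le_rpow_of_exponent_le hX
    linarith [H.hpq, H.hr, H.hε]
  have h2 : X ^ (p * -(1 / 6) + q * -(1 / 6) + q + p / 2) ≤ X ^ (5 / 6 - ε₀ / 100) := by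
    apply Real.rpow_le_rpow_of_exponent_le hX
    linarith [H.hpq, H.hp2, H.hh, H.hκ2, H.hε1, H.hp, H.hq]
  linarith

theorem fine_le (hX : 1 ≤ X) (H : Ex κ ε₀ p q r h) (hr : p - 1 / 6 - 1 / 100 ≤ r) :
    (X ^ p * X ^ q) ^ (ε₀ / 48) * ((X ^ r / X ^ p) ^ (1 / 2 : ℝ) * X ^ q * (X ^ p) ^ (1 / 2 : ℝ)
        + X ^ p * (X ^ q) ^ (1 / 2 : ℝ) * (X ^ r / X ^ p) ^ (-(1 / 4) : ℝ)
        + (X ^ p * X ^ q) ^ (5 / 6 : ℝ) * (X ^ r / X ^ p) ^ (5 / 12 : ℝ)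
        + (X ^ q) ^ (2 / 3 : ℝ) * X ^ p * (X ^ r / X ^ p) ^ (1 / 12 : ℝ)) ≤
      4 * X ^ (5 / 6 - ε₀ / 100) := by
  have hX0 : 0 < X := by linarith
  rw [← Real.rpow_sub hX0, ← Real.rpow_add hX0]
  simp only [← Real.rpow_mul hX0.le, ← Real.rpow_add hX0]
  rw [mul_add, mul_add, mul_add, ← Real.rpow_add hX0, ← Real.rpow_add hX0, ← Real.rpow_add hX0,
    ← Real.rpow_add hX0]
  obtain ⟨hκ, hκ1, hκ2, hε, hε1, hp, hq, hpq, hp1, hp2, hr', hh⟩ := H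
  have hpqe : (p + q) * (ε₀ / 48) ≤ ε₀ / 48 := by nlinarith
  have h1 : X ^ ((p + q) * (ε₀ / 48) + ((r - p) * (1 / 2) + q + p * (1 / 2))) ≤
      X ^ (5 / 6 - ε₀ / 100) := by
    apply Real.rpow_le_rpow_of_exponent_le hX
    linarith
  have h2 : X ^ ((p + q) * (ε₀ / 48) + (p + q * (1 / 2) + (r - p) * -(1 / 4))) ≤
      X ^ (5 / 6 - ε₀ / 100) := by
    apply Real.rpow_le_rpow_of_exponent_le hX
    linarith
  have h3 : X ^ ((p + q) * (ε₀ / 48) + ((p + q) * (5 / 6) + (r - p) * (5 / 12))) ≤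
      X ^ (5 / 6 - ε₀ / 100) := by
    apply Real.rpow_le_rpow_of_exponent_le hX
    linarith
  have h4 : X ^ ((p + q) * (ε₀ / 48) + (q * (2 / 3) + p + (r - p) * (1 / 12))) ≤
      X ^ (5 / 6 - ε₀ / 100) := by
    apply Real.rpow_le_rpow_of_exponent_le hX
    linarith
  linarith

theorem exists_exp {X P : ℝ} (hX : 1 < X) (hP : 0 < P) : ∃ p : ℝ, P = X ^ p :=
  ⟨Real.logb X P, (Real.rpow_logb (by linarith) hX.ne' hP).symm⟩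

theorem exp_le {X p q : ℝ} (hX : 1 < X) (h : X ^ p ≤ X ^ q) : p ≤ q :=
  (Real.rpow_le_rpow_left_iff hX).1 h

/-- the fine range -/
theorem tl_fine (hF : FineHyp) (hε : 0 < ε₀) : ∃ C : ℝ, 0 ≤ C ∧
    ∀ X G : ℝ, 3 ≤ X → 1 ≤ G → ∀ κ p q r h : ℝ, Ex κ ε₀ p q r h →
    ∀ i j l : ℕ, (2 : ℝ) ^ i = X ^ p → (2 : ℝ) ^ j = X ^ q → (2 : ℝ) ^ l = X ^ r →
    ∀ α β : O → ℂ, (∀ a, ‖α a‖ ≤ G) → (∀ b, ‖β b‖ ≤ 1) → ∀ x : ℝ, 1 ≤ x →
    TL (fun a b => wf (a * b)) α β x i j l ≤ C * G * X ^ (5 / 6 - ε₀ / 100) := by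
  obtain ⟨C, hC, hF⟩ := hF (ε₀ / 48) (by positivity)
  refine ⟨1920 + 4 * C + 960, by positivity, ?_⟩
  intro X G hX hG κ p q r h H i j l hi hj hl α β hα hβ x hx
  have hX0 : 0 < X := by linarith
  have hX1 : 1 ≤ X := by linarith
  have hX1' : 1 < X := by linarith
  have hG0 : 0 ≤ G := by linarith
  have hXc : 0 ≤ X ^ (5 / 6 - ε₀ / 100) := by positivity
  have hsq : √((2 : ℝ) ^ i) = X ^ (p / 2) := by
    rw [hi, Real.sqrt_eq_rpow, ← Real.rpow_mul hX0.le]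
    congr 1; ring
  rcases le_or_gt r (p - 1 / 6 - 1 / 100) with hr | hr
  · have h1 := TL_le_trivial (D := fun a b => wf (a * b)) (α := α) (β := β) (x := x) (i := i)
      (j := j) (l := l) (M := 2) hG0 (by norm_num) (fun a _ b _ => norm_wf_le_two _) hα hβ
    rw [hsq, hl, hj] at h1
    have h2 := triv_le hX1 H hr
    calc _ ≤ _ := h1
      _ = 960 * G * (X ^ q * (X ^ r + X ^ (p / 2))) := by ring
      _ ≤ 960 * G * (2 * X ^ (5 / 6 - ε₀ / 100)) := by gcongr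
      _ = 1920 * (G * X ^ (5 / 6 - ε₀ / 100)) := by ring
      _ ≤ (1920 + 4 * C + 960) * (G * X ^ (5 / 6 - ε₀ / 100)) := by
          gcongr
          linarith
      _ = _ := by ring
  · have h1 : TL (fun a b => wf (a * b)) α β x i j l ≤ TL Dg α β x i j l + TL Dm α β x i j l :=
      TL_sub_le fun a ha b hb => wf_mul_eq (inP_of_mem_DB ha) (inP_of_mem_DB hb)
    have hli : l ≤ i := by
      have h2 : X ^ r ≤ X ^ p := Real.rpow_le_rpow_of_exponent_le hX1 (by linarith [H.hr, H.hε])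
      rw [← hl, ← hi] at h2
      exact (pow_le_pow_iff_right₀ (by norm_num : (1 : ℝ) < 2)).1 h2
    have h2 : TL Dg α β x i j l ≤ G * (C * (X ^ p * X ^ q) ^ (ε₀ / 48) *
        ((X ^ r / X ^ p) ^ (1 / 2 : ℝ) * X ^ q * (X ^ p) ^ (1 / 2 : ℝ)
        + X ^ p * (X ^ q) ^ (1 / 2 : ℝ) * (X ^ r / X ^ p) ^ (-(1 / 4) : ℝ)
        + (X ^ p * X ^ q) ^ (5 / 6 : ℝ) * (X ^ r / X ^ p) ^ (5 / 12 : ℝ)
        + (X ^ q) ^ (2 / 3 : ℝ) * X ^ p * (X ^ r / X ^ p) ^ (1 / 12 : ℝ))) := by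
      refine TL_Dg_le (by linarith) hα hβ fun α' β' hα' hβ' => ?_
      exact hF i j l x hli hx α' β' hα' hβ' (X ^ p) (X ^ q) (X ^ r / X ^ p) hi.symm hj.symm
        (by rw [hi, hl])
    have h3 := fine_le hX1 H hr.le
    have h4 := TL_le_trivial (D := Dm) (α := α) (β := β) (x := x) (i := i) (j := j) (l := l)
      (M := ((2 : ℝ) ^ i) ^ (-(1 / 6) : ℝ) * ((2 : ℝ) ^ j) ^ (-(1 / 6) : ℝ)) hG0 (by positivity)
      (fun a ha b hb => norm_Dm_le ha hb) hα hβ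
    rw [hsq, hl, hj, hi] at h4
    have h5 := model_le hX1 H
    calc _ ≤ _ := h1
      _ ≤ _ := add_le_add h2 h4
      _ = G * C * ((X ^ p * X ^ q) ^ (ε₀ / 48) *
        ((X ^ r / X ^ p) ^ (1 / 2 : ℝ) * X ^ q * (X ^ p) ^ (1 / 2 : ℝ)
        + X ^ p * (X ^ q) ^ (1 / 2 : ℝ) * (X ^ r / X ^ p) ^ (-(1 / 4) : ℝ)
        + (X ^ p * X ^ q) ^ (5 / 6 : ℝ) * (X ^ r / X ^ p) ^ (5 / 12 : ℝ)
        + (X ^ q) ^ (2 / 3 : ℝ) * X ^ p * (X ^ r / X ^ p) ^ (1 / 12 : ℝ))) +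
        480 * G * ((X ^ p) ^ (-(1 / 6) : ℝ) * (X ^ q) ^ (-(1 / 6) : ℝ) * X ^ q *
          (X ^ r + X ^ (p / 2))) := by ring
      _ ≤ G * C * (4 * X ^ (5 / 6 - ε₀ / 100)) + 480 * G * (2 * X ^ (5 / 6 - ε₀ / 100)) := by
          gcongr
      _ = (4 * C + 960) * (G * X ^ (5 / 6 - ε₀ / 100)) := by ring
      _ ≤ (1920 + 4 * C + 960) * (G * X ^ (5 / 6 - ε₀ / 100)) := by
          gcongr
          linarith
      _ = _ := by ring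

/-- all ranges -/
theorem tl_all (hF : FineHyp) (hHB : HBsq) {f : ℝ → O → ℂ} {η κ₁ : ℝ} (hκ₁ : 0 < κ₁)
    (hε : 0 < ε₀) (hε1 : ε₀ ≤ 1) (hC : CenDN f η κ₁ ε₀) (hκ : 0 < κ) (h1 : κ ≤ κ₁ / 2)
    (h2 : κ ≤ ε₀ / 8) (h3 : κ ≤ 1 / 100) (A : ℕ) : ∃ C : ℝ, 0 ≤ C ∧
    ∀ X G : ℝ, 3 ≤ X → 1 ≤ G → (∀ a, ‖cut (X ^ η) (X ^ (1 / 2 - κ)) (X ^ (1 / 2 + κ)) (f X) a‖ ≤ G) →
    ∀ i j l : ℕ, (2 : ℝ) ^ (i + j) ≤ X → ∀ β : O → ℂ, (∀ b, ‖β b‖ ≤ 1) → ∀ x : ℝ, 1 ≤ x →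
    TL (fun a b => wf (a * b)) (cut (X ^ η) (X ^ (1 / 2 - κ)) (X ^ (1 / 2 + κ)) (f X)) β x i j l ≤
      C * G * X ^ (5 / 6 : ℝ) / Real.log X ^ A := by
  classical
  set d : ℝ := min (κ₁ / 2) (1 / 100) with hd
  have hd0 : 0 < d := lt_min (by positivity) (by norm_num)
  obtain ⟨C₁, hC₁, hS⟩ := case_small hd0 (2 * A)
  obtain ⟨C₂, hC₂, hH⟩ := case_HB' hHB (κ := κ₁ / 2) (by positivity) (2 * A)
  obtain ⟨C₃, hC₃, hD⟩ := hC (2 * A)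
  obtain ⟨C₄, hC₄, hFi⟩ := tl_fine hF hε
  set Lc : ℝ := ((A + 1) / (ε₀ / 100)) ^ A with hLc
  have hLc0 : 0 ≤ Lc := by positivity
  refine ⟨√(8 * C₁) + √(8 * C₂) + √(8 * C₃) + C₄ * Lc, by positivity, ?_⟩
  intro X G hX hG hα i j l hij β hβ x hx
  set α : O → ℂ := cut (X ^ η) (X ^ (1 / 2 - κ)) (X ^ (1 / 2 + κ)) (f X) with hαdef
  have hX0 : 0 < X := by linarith
  have hX1 : 1 ≤ X := by linarith
  have hX1' : 1 < X := by linarith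
  have hG0 : 0 ≤ G := by linarith
  have hL1 : 1 ≤ Real.log X := by
    rw [Real.le_log_iff_exp_le hX0]
    exact (Real.exp_one_lt_d9.le.trans (by norm_num)).trans hX
  have hLA : 0 < Real.log X ^ A := by positivity
  have hpos : 0 ≤ G * X ^ (5 / 6 : ℝ) / Real.log X ^ A := by positivity
  have s1 : 0 ≤ √(8 * C₁) := Real.sqrt_nonneg _
  have s2 : 0 ≤ √(8 * C₂) := Real.sqrt_nonneg _
  have s3 : 0 ≤ √(8 * C₃) := Real.sqrt_nonneg _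
  have s4 : 0 ≤ C₄ * Lc := by positivity
  have hfin : ∀ C' : ℝ, C' ≤ √(8 * C₁) + √(8 * C₂) + √(8 * C₃) + C₄ * Lc →
      TL (fun a b => wf (a * b)) α β x i j l ≤ C' * G * X ^ (5 / 6 : ℝ) / Real.log X ^ A →
      TL (fun a b => wf (a * b)) α β x i j l ≤
        (√(8 * C₁) + √(8 * C₂) + √(8 * C₃) + C₄ * Lc) * G * X ^ (5 / 6 : ℝ) /
          Real.log X ^ A := by
    intro C' hC' h
    calc _ ≤ _ := h
      _ = C' * (G * X ^ (5 / 6 : ℝ) / Real.log X ^ A) := by ring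
      _ ≤ (√(8 * C₁) + √(8 * C₂) + √(8 * C₃) + C₄ * Lc) *
          (G * X ^ (5 / 6 : ℝ) / Real.log X ^ A) := by gcongr
      _ = _ := by ring
  by_cases hne : ∃ a ∈ DB i, α a ≠ 0
  swap
  · push Not at hne
    have h0 : TL (fun a b => wf (a * b)) α β x i j l = 0 := by
      rw [TL]
      refine sum_eq_zero fun s _ => ?_
      rw [norm_eq_zero]
      refine sum_eq_zero fun b _ => sum_eq_zero fun a ha => ?_
      rw [hne a (mem_filter.1 ha).1, zero_mul, zero_mul]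
    rw [h0]
    positivity
  obtain ⟨a, ha, hαa⟩ := hne
  have hs : X ^ (1 / 2 - κ) < (N a : ℝ) ∧ (N a : ℝ) ≤ X ^ (1 / 2 + κ) := by
    rw [hαdef, cut] at hαa
    split_ifs at hαa with h
    · exact ⟨h.2.2.2.1, h.2.2.2.2⟩
    · exact absurd rfl hαa
  have hb := DB_bounds ha
  have hi1 : X ^ (1 / 2 - κ) ≤ (2 : ℝ) ^ (i + 1) := by
    have : ((N a : ℕ) : ℝ) < ((2 ^ (i + 1) : ℕ) : ℝ) := by exact_mod_cast hb.2
    push_cast at this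
    linarith [hs.1]
  have hi2 : (2 : ℝ) ^ i ≤ X ^ (1 / 2 + κ) := by
    have : ((2 ^ i : ℕ) : ℝ) ≤ ((N a : ℕ) : ℝ) := by exact_mod_cast hb.1
    push_cast at this
    linarith [hs.2]
  rcases lt_or_ge (X ^ d) 4 with hXd | hXd
  · exact hfin _ (by linarith) (TL_of_FS hX hC₁ hG0 hβ (hS X G hX hG hXd α i j l hα hij))
  obtain ⟨p, hp⟩ := exists_exp hX1' (show (0 : ℝ) < 2 ^ i by positivity)
  obtain ⟨q, hq⟩ := exists_exp hX1' (show (0 : ℝ) < 2 ^ j by positivity)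
  obtain ⟨r, hr⟩ := exists_exp hX1' (show (0 : ℝ) < 2 ^ l by positivity)
  obtain ⟨h, hh⟩ := exists_exp hX1' (show (0 : ℝ) < 2 by positivity)
  have hhd : 2 * h ≤ d := by
    apply exp_le hX1'
    rw [mul_comm, Real.rpow_mul hX0.le, ← hh]
    norm_num
    linarith
  have hd1 : d ≤ κ₁ / 2 := min_le_left _ _
  have hd2 : d ≤ 1 / 100 := min_le_right _ _
  have hp0 : 0 ≤ p := by
    apply exp_le hX1'
    rw [Real.rpow_zero, ← hp]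
    exact one_le_pow₀ (by norm_num)
  have hq0 : 0 ≤ q := by
    apply exp_le hX1'
    rw [Real.rpow_zero, ← hq]
    exact one_le_pow₀ (by norm_num)
  have hpq : p + q ≤ 1 := by
    apply exp_le hX1'
    rw [Real.rpow_add hX0, ← hp, ← hq, Real.rpow_one, ← pow_add]
    exact hij
  have hp1 : p ≤ 1 / 2 + κ := by
    apply exp_le hX1'
    rw [← hp]
    exact hi2
  have hp2 : 1 / 2 - κ ≤ p + h := by
    apply exp_le hX1'
    rw [Real.rpow_add hX0, ← hp, ← hh, ← pow_succ]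
    exact hi1
  rcases le_or_gt ((2 : ℝ) ^ (i + j)) (4 * X ^ (1 - κ₁ / 2)) with hA | hA
  · refine hfin _ (by linarith) (TL_of_FS hX hC₂ hG0 hβ (hH X G hX hG α i j l hα hA ?_ ?_ hij))
    · rw [hp]
      have : X ^ p ≤ X ^ (2 / 3 : ℝ) := Real.rpow_le_rpow_of_exponent_le hX1 (by linarith)
      have h0 : 0 ≤ X ^ (2 / 3 : ℝ) := by positivity
      linarith
    · rw [hq]
      have : X ^ q ≤ X ^ (2 / 3 : ℝ) := Real.rpow_le_rpow_of_exponent_le hX1 (by linarith)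
      have h0 : 0 ≤ X ^ (2 / 3 : ℝ) := by positivity
      linarith
  have hpq2 : 1 - κ₁ / 2 ≤ p + q := by
    apply exp_le hX1'
    rw [Real.rpow_add hX0 p q, ← hp, ← hq, ← pow_add]
    have h0 : 0 ≤ X ^ (1 - κ₁ / 2) := by positivity
    linarith
  rcases le_or_gt ((2 : ℝ) ^ i) (X ^ ε₀ * 2 ^ l) with hB | hB
  · have h5 := hD X hX (X ^ (1 / 2 - κ)) (X ^ (1 / 2 + κ)) i j l
      (by rw [hp]; exact Real.rpow_le_rpow_of_exponent_le hX1 (by linarith))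
      (by rw [hp]; exact Real.rpow_le_rpow_of_exponent_le hX1 (by linarith))
      (by rw [hq]; exact Real.rpow_le_rpow_of_exponent_le hX1 (by linarith)) hij hB
    refine hfin _ (by linarith) (TL_of_FS hX hC₃ hG0 hβ ?_)
    rw [le_div_iff₀ (by positivity)] at h5
    have hG2 : 1 ≤ G ^ 2 := by nlinarith
    calc _ = FS (fun a b => wf (a * b)) α i j l * (2 ^ j * Real.log X ^ (2 * A)) := by ring
      _ ≤ C₃ * X ^ (5 / 3 : ℝ) := h5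
      _ = C₃ * 1 * X ^ (5 / 3 : ℝ) := by ring
      _ ≤ _ := by gcongr
  · have hr1 : r ≤ p - ε₀ := by
      have : X ^ ε₀ * 2 ^ l ≤ 2 ^ i := hB.le
      rw [hr, hp, ← Real.rpow_add hX0] at this
      linarith [exp_le hX1' this]
    have H : Ex κ ε₀ p q r h :=
      ⟨hκ, h2, h3, hε, hε1, hp0, hq0, hpq, hp1, hp2, hr1, by linarith⟩
    have h6 := hFi X G hX hG κ p q r h H i j l hp hq hr α β hα hβ x hx
    refine hfin (C₄ * Lc) (by linarith) (h6.trans ?_)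
    rw [le_div_iff₀ hLA]
    have hlog : Real.log X ^ A ≤ Lc * X ^ (ε₀ / 100) := log_pow_le (by positivity) A hX1
    calc C₄ * G * X ^ (5 / 6 - ε₀ / 100) * Real.log X ^ A
        ≤ C₄ * G * X ^ (5 / 6 - ε₀ / 100) * (Lc * X ^ (ε₀ / 100)) := by gcongr
      _ = C₄ * Lc * G * (X ^ (5 / 6 - ε₀ / 100) * X ^ (ε₀ / 100)) := by ring
      _ = _ := by
          rw [← Real.rpow_add hX0]
          congr 2; ring

/-- **The centre theorem** from `FineHyp`, `HBsq` and `CenDN`. -/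
theorem bil_cen (hF : FineHyp) (hHB : HBsq) {f : ℝ → O → ℂ} {η κ₁ : ℝ} (hκ₁ : 0 < κ₁)
    (hε : 0 < ε₀) (hε1 : ε₀ ≤ 1) (hC : CenDN f η κ₁ ε₀) (hκ : 0 < κ) (h1 : κ ≤ κ₁ / 2)
    (h2 : κ ≤ ε₀ / 8) (h3 : κ ≤ 1 / 100) {Cf : ℝ} (hCf : 1 ≤ Cf) (m : ℕ)
    (hf : ∀ X : ℝ, 3 ≤ X → ∀ a, ‖cut (X ^ η) (X ^ (1 / 2 - κ)) (X ^ (1 / 2 + κ)) (f X) a‖ ≤
      Cf * Real.log X ^ m) (A : ℕ) : ∃ C : ℝ, 0 ≤ C ∧ ∀ X : ℝ, 3 ≤ X → ∀ β : O → ℂ,
      (∀ b, ‖β b‖ ≤ 1) → (∀ b, β b ≠ 0 → Primary b ∧ Squarefree b) →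
      ∀ x : ℝ, x ≤ X →
      ‖Bil wf (cut (X ^ η) (X ^ (1 / 2 - κ)) (X ^ (1 / 2 + κ)) (f X)) β x‖ ≤
        C * X ^ (5 / 6 : ℝ) / Real.log X ^ A := by
  classical
  obtain ⟨C, hC, hT⟩ := tl_all hF hHB hκ₁ hε hε1 hC hκ h1 h2 h3 (A + 3 + m)
  refine ⟨36 * (C * Cf), by positivity, fun X hX β hβ1 hβ x hx => ?_⟩
  have hX0 : 0 < X := by linarith
  have hL1 : 1 ≤ Real.log X := by
    rw [Real.le_log_iff_exp_le hX0]
    exact (Real.exp_one_lt_d9.le.trans (by norm_num)).trans hX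
  set α : O → ℂ := cut (X ^ η) (X ^ (1 / 2 - κ)) (X ^ (1 / 2 + κ)) (f X) with hαdef
  set L := Real.log X with hLdef
  rcases lt_or_ge x 1 with hx1 | hx1
  · have : Bil wf α β x = 0 := by
      rw [Bil, PB_eq_empty hx1, sum_empty]
    rw [this, norm_zero]
    positivity
  have hαs : ∀ a, α a ≠ 0 → Primary a ∧ Squarefree a := by
    intro a ha
    rw [hαdef, cut] at ha
    split_ifs at ha with h
    · exact ⟨h.1, h.2.1⟩
    · exact absurd rfl ha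
  set M : ℕ := ⌊Real.logb 2 X⌋₊ + 1 with hM
  have hlogb : 0 ≤ Real.logb 2 X := Real.logb_nonneg (by norm_num) (by linarith)
  have hM1 : x < 2 ^ M := by
    have h1 : X = 2 ^ (Real.logb 2 X) := (Real.rpow_logb (by norm_num) (by norm_num) hX0).symm
    have h2 : Real.logb 2 X < (M : ℝ) := by rw [hM]; push_cast; exact Nat.lt_floor_add_one _
    have h3 : (2 : ℝ) ^ (Real.logb 2 X) < 2 ^ (M : ℝ) :=
      Real.rpow_lt_rpow_of_exponent_lt (by norm_num) h2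
    rw [Real.rpow_natCast] at h3
    linarith
  have hM2 : (M : ℝ) ≤ 3 * L := by
    have h1 : (⌊Real.logb 2 X⌋₊ : ℝ) ≤ Real.logb 2 X := Nat.floor_le hlogb
    have h2 : Real.logb 2 X ≤ 2 * L := by
      rw [Real.logb, div_le_iff₀ (Real.log_pos (by norm_num))]
      have := Real.log_two_gt_d9
      nlinarith
    rw [hM]; push_cast
    linarith
  have hG1 : 1 ≤ Cf * L ^ m := by
    have : 1 ≤ L ^ m := one_le_pow₀ hL1
    nlinarith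
  have hterm : ∀ i j l : ℕ, (2 : ℝ) ^ (i + j) ≤ x →
      TL (fun a b => wf (a * b)) α β x i j l ≤ C * Cf * X ^ (5 / 6 : ℝ) / L ^ (A + 3) := by
    intro i j l hij
    refine (hT X (Cf * L ^ m) hX hG1 (hf X hX) i j l (hij.trans hx) β hβ1 x hx1).trans
      (le_of_eq ?_)
    have h6 : L ≠ 0 := by positivity
    rw [pow_add L (A + 3) m]
    field_simp
  have hbil := bil_le_TL (w := wf) (α := α) (β := β) hx1 hM1 hαs hβ
  have hpos : 0 ≤ C * Cf * X ^ (5 / 6 : ℝ) / L ^ (A + 3) := by positivity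
  calc ‖Bil wf α β x‖ ≤ _ := hbil
    _ ≤ ∑ i ∈ range M, ∑ j ∈ range M, ∑ l ∈ range (M + 1),
        C * Cf * X ^ (5 / 6 : ℝ) / L ^ (A + 3) := by
        refine sum_le_sum fun i _ => sum_le_sum fun j _ => ?_
        split_ifs with hij
        · exact sum_le_sum fun l _ => hterm i j l hij
        · exact sum_nonneg fun _ _ => hpos
    _ = (M * (M * (M + 1))) * (C * Cf * X ^ (5 / 6 : ℝ) / L ^ (A + 3)) := by
        simp only [sum_const, card_range, nsmul_eq_mul]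
        push_cast
        ring
    _ ≤ (36 * L ^ 3) * (C * Cf * X ^ (5 / 6 : ℝ) / L ^ (A + 3)) := by
        refine mul_le_mul_of_nonneg_right ?_ hpos
        have hM0 : (0 : ℝ) ≤ M := by positivity
        have h1 : (M : ℝ) + 1 ≤ 4 * L := by linarith
        calc (M : ℝ) * (M * (M + 1)) ≤ (3 * L) * ((3 * L) * (4 * L)) := by gcongr
          _ = 36 * L ^ 3 := by ring
    _ = _ := by
        have h6 : L ≠ 0 := by positivity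
        rw [pow_add]
        field_simp

end Vale.Agent.P006.TIIC
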