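import Vale.Agent.P006.TIIC.NCfC4
import Vale.Agent.P006.TIIC.FamDisp
import Vale.Agent.P006.TIIC.Main

/-!
P006, block TIIC (helper570): dispersion in the centre.
-/

namespace Vale.Agent.P006.TIIC

open scoped Classical
open Finset H611 DN DISP

variable {κ₀ e k κ X : ℝ} {i j l : ℕ} {f : ℝ → O → ℂ} {η : ℝ}

theorem FS_congr {D : O → O → ℂ} {α α' : O → ℂ} {i j l : ℕ} (h : ∀ a ∈ DB i, α a = α' a) :
    FS D α i j l = FS D α' i j l := by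
  rw [FS, FS]
  refine sum_congr rfl fun s _ => sum_congr rfl fun b _ => ?_
  rw [sum_congr rfl fun a ha => by rw [h a (mem_filter.1 ha).1]]

theorem alc_eq {y₁ y₂ : ℝ} {a : O} (ha : a ∈ DB i) :
    alc f η X y₁ y₂ i a = cut (X ^ η) y₁ y₂ (f X) a := by
  have h := (mem_DB_iff.1 ha).2.2
  rw [alc, if_pos h]

theorem FS_alc (y₁ y₂ : ℝ) : FS (fun a b => wf (a * b)) (cut (X ^ η) y₁ y₂ (f X)) i j l =
    FS (fun a b => wf (a * b)) (alc f η X y₁ y₂ i) i j l :=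
  FS_congr fun a ha => (alc_eq ha).symm

theorem FS_alc' (y₁ y₂ : ℝ) : FS (fun a b => wf (a * b)) (cut (X ^ η) y₁ y₂ (f X)) i j l =
    FamS wf (alc f η X y₁ y₂ i) 1 ((2 : ℝ) ^ i - 1 / 2) (1 * ((2 : ℝ) ^ j - 1 / 2))
      ((1 + 1) * ((2 : ℝ) ^ j - 1 / 2)) l := by
  rw [FS_eq_FamS]
  congr 1

/-- the block coefficients are bounded: small `X` -/
theorem cen_small (hcls : Hcls f η) {X₀ : ℝ} (hX₀ : 3 ≤ X₀) (A' : ℕ) : ∃ C : ℝ, 0 ≤ C ∧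
    ∀ X : ℝ, 3 ≤ X → X ≤ X₀ → ∀ (y₁ y₂ : ℝ) (i j l : ℕ), 1 ≤ j → (2 : ℝ) ^ (i + j) ≤ X →
    2 ^ j * FS (fun a b => wf (a * b)) (cut (X ^ η) y₁ y₂ (f X)) i j l * Real.log X ^ A' ≤
      C * X ^ (5 / 3 : ℝ) := by
  refine ⟨8 * 64 * 1024 * (X₀ ^ 2 * Real.log X₀ ^ (A' + 2)), by
    have := Real.log_nonneg (by linarith : (1 : ℝ) ≤ X₀)
    positivity, ?_⟩
  intro X hX hXX y₁ y₂ i j l hj hij
  have hX0 : 0 < X := by linarith
  have hL0 : 0 ≤ Real.log X := Real.log_nonneg (by linarith)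
  have hA : 2 * ((2 : ℝ) ^ i - 1 / 2) ≤ X := by
    have h1 : (2 : ℝ) ^ 1 ≤ 2 ^ j := pow_le_pow_right₀ (by norm_num) hj
    have h2 : (0 : ℝ) < 2 ^ i := by positivity
    rw [pow_add] at hij
    nlinarith
  have hcl : ClassG (alc f η X y₁ y₂ i) X (16 * Real.log X) := alc_class hcls hX hA y₁ y₂
  rw [FS_alc]
  have h1 := FS_le_trivial (D := fun a b => wf (a * b)) (i := i) (j := j) (l := l) (M := 2)
    (show 0 ≤ 16 * Real.log X by positivity) (by norm_num) (fun a _ b _ => norm_wf_le_two _)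
    hcl.bound
  have h2 : Real.log X ≤ Real.log X₀ := Real.log_le_log hX0 hXX
  have h3 : 1 ≤ X ^ (5 / 3 : ℝ) := Real.one_le_rpow (by linarith) (by norm_num)
  have h4 : (0 : ℝ) ≤ X₀ ^ 2 * Real.log X₀ ^ (A' + 2) := by
    have := hL0.trans h2
    positivity
  calc 2 ^ j * FS (fun a b => wf (a * b)) (alc f η X y₁ y₂ i) i j l * Real.log X ^ A'
      ≤ 2 ^ j * (8 * 2 ^ j * (8 * 2 ^ i * (16 * Real.log X * 2)) ^ 2) * Real.log X ^ A' := by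
        gcongr
    _ = 8 * 64 * 1024 * (((2 : ℝ) ^ (i + j)) ^ 2 * Real.log X ^ (A' + 2)) := by
        rw [pow_add, pow_add]; ring
    _ ≤ 8 * 64 * 1024 * (X₀ ^ 2 * Real.log X₀ ^ (A' + 2)) := by
        gcongr
        exact hij.trans hXX
    _ = 8 * 64 * 1024 * (X₀ ^ 2 * Real.log X₀ ^ (A' + 2)) * 1 := by ring
    _ ≤ 8 * 64 * 1024 * (X₀ ^ 2 * Real.log X₀ ^ (A' + 2)) * X ^ (5 / 3 : ℝ) := by gcongr

/-- exponents in the centre -/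
structure Cq (X p q : ℝ) : Prop where
  hX : 1 ≤ X
  p0 : 1 / 2 - 1 / 10000 ≤ p
  p1 : p ≤ 1 / 2 + 1 / 10000
  q0 : 1 / 2 - 1 / 10000 ≤ q
  hpq : p + q ≤ 1

theorem arith1 {X p q a b B E L K : ℝ} {A' : ℕ} (Q : Cq X p q) (ha : a = X ^ p) (hb : b = X ^ q)
    (hB : B ≤ b) (hL : 0 ≤ L) (hK : 0 ≤ K) (hLK : L ^ (A' + 2) ≤ K * X ^ (1 / 100 : ℝ))
    (hE0 : 0 ≤ E) (hE : E ≤ 8 * a * (16 * L) ^ 2) :
    b * (B * E) * L ^ A' ≤ 2048 * K * X ^ (5 / 3 : ℝ) := by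
  have hX0 : 0 < X := by linarith [Q.hX]
  have ha0 : 0 ≤ a := by rw [ha]; positivity
  have hb0 : 0 ≤ b := by rw [hb]; positivity
  calc b * (B * E) * L ^ A' ≤ b * (b * (8 * a * (16 * L) ^ 2)) * L ^ A' := by gcongr
    _ = 2048 * (b * b * a) * L ^ (A' + 2) := by rw [pow_add]; ring
    _ ≤ 2048 * (b * b * a) * (K * X ^ (1 / 100 : ℝ)) := by gcongr
    _ = 2048 * K * X ^ (q + q + p + 1 / 100) := by
        rw [ha, hb, Real.rpow_add hX0, Real.rpow_add hX0, Real.rpow_add hX0]; ring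
    _ ≤ 2048 * K * X ^ (5 / 3 : ℝ) := by
        refine mul_le_mul_of_nonneg_left ?_ (by positivity)
        exact Real.rpow_le_rpow_of_exponent_le Q.hX (by linarith [Q.hpq, Q.p0])

theorem arith2 {X p q a b B E L K C : ℝ} {A' : ℕ} (Q : Cq X p q) (ha : a = X ^ p)
    (hb : b = X ^ q) (hB : B ≤ b) (hL : 0 ≤ L) (hK : 0 ≤ K) (hC : 0 ≤ C)
    (hLK : L ^ (A' + 2) ≤ K * X ^ (1 / 100 : ℝ))
    (hE0 : 0 ≤ E) (hE : E ≤ C * (16 * L) ^ 2 * (2 * a * X ^ (1 / 100 : ℝ))) :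
    b * (B * E) * L ^ A' ≤ C * 512 * K * X ^ (5 / 3 : ℝ) := by
  have hX0 : 0 < X := by linarith [Q.hX]
  have ha0 : 0 ≤ a := by rw [ha]; positivity
  have hb0 : 0 ≤ b := by rw [hb]; positivity
  calc b * (B * E) * L ^ A'
      ≤ b * (b * (C * (16 * L) ^ 2 * (2 * a * X ^ (1 / 100 : ℝ)))) * L ^ A' := by gcongr
    _ = C * 512 * (b * b * a * X ^ (1 / 100 : ℝ)) * L ^ (A' + 2) := by rw [pow_add]; ring
    _ ≤ C * 512 * (b * b * a * X ^ (1 / 100 : ℝ)) * (K * X ^ (1 / 100 : ℝ)) := by gcongr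
    _ = C * 512 * K * X ^ (q + q + p + 1 / 100 + 1 / 100) := by
        rw [ha, hb, Real.rpow_add hX0, Real.rpow_add hX0, Real.rpow_add hX0, Real.rpow_add hX0]
        ring
    _ ≤ C * 512 * K * X ^ (5 / 3 : ℝ) := by
        refine mul_le_mul_of_nonneg_left ?_ (by positivity)
        exact Real.rpow_le_rpow_of_exponent_le Q.hX (by linarith [Q.hpq, Q.p0])

theorem arith3 {X p q a b A B L K : ℝ} {A' : ℕ} (Q : Cq X p q) (ha : a = X ^ p)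
    (hb : b = X ^ q) (hA0 : 0 ≤ A) (hB0 : 0 ≤ B) (hA : A ≤ a) (hB : B ≤ b) (hL : 0 ≤ L)
    (hK : 0 ≤ K) (hLK : L ^ (A' + 2) ≤ K * X ^ (1 / 100 : ℝ)) :
    b * ((16 * L) ^ 2 * ((A * B) ^ (1 / 100 : ℝ) * (A ^ (11 / 6 : ℝ) *
      B ^ (1 / 3 : ℝ) + (A * B) ^ (2 / 3 : ℝ)))) * L ^ A' ≤ 512 * K * X ^ (5 / 3 : ℝ) := by
  have hX0 : 0 < X := by linarith [Q.hX]
  have ha0 : 0 ≤ a := by rw [ha]; positivity
  have hb0 : 0 ≤ b := by rw [hb]; positivity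
  have e1 : (A * B) ^ (1 / 100 : ℝ) ≤ X ^ (1 / 100 : ℝ) := by
    have : A * B ≤ X := by
      calc A * B ≤ a * b := by gcongr
        _ = X ^ (p + q) := by rw [ha, hb, Real.rpow_add hX0]
        _ ≤ X ^ (1 : ℝ) := Real.rpow_le_rpow_of_exponent_le Q.hX Q.hpq
        _ = X := Real.rpow_one X
    gcongr
  have e2 : b * (A ^ (11 / 6 : ℝ) * B ^ (1 / 3 : ℝ)) ≤ X ^ (8 / 5 : ℝ) := by
    calc b * (A ^ (11 / 6 : ℝ) * B ^ (1 / 3 : ℝ))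
        ≤ b * (a ^ (11 / 6 : ℝ) * b ^ (1 / 3 : ℝ)) := by gcongr
      _ = X ^ (q + (p * (11 / 6) + q * (1 / 3))) := by
          rw [ha, hb, ← Real.rpow_mul hX0.le, ← Real.rpow_mul hX0.le, ← Real.rpow_add hX0,
            ← Real.rpow_add hX0]
      _ ≤ X ^ (8 / 5 : ℝ) :=
          Real.rpow_le_rpow_of_exponent_le Q.hX (by linarith [Q.hpq, Q.q0])
  have e3 : b * (A * B) ^ (2 / 3 : ℝ) ≤ X ^ (8 / 5 : ℝ) := by
    calc b * (A * B) ^ (2 / 3 : ℝ) ≤ b * (a * b) ^ (2 / 3 : ℝ) := by gcongr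
      _ = X ^ (q + (p + q) * (2 / 3)) := by
          rw [ha, hb, ← Real.rpow_add hX0, ← Real.rpow_mul hX0.le, ← Real.rpow_add hX0]
      _ ≤ X ^ (8 / 5 : ℝ) :=
          Real.rpow_le_rpow_of_exponent_le Q.hX (by linarith [Q.hpq, Q.p0])
  calc b * ((16 * L) ^ 2 * ((A * B) ^ (1 / 100 : ℝ) * (A ^ (11 / 6 : ℝ) *
        B ^ (1 / 3 : ℝ) + (A * B) ^ (2 / 3 : ℝ)))) * L ^ A'
      = 256 * (A * B) ^ (1 / 100 : ℝ) * (b * (A ^ (11 / 6 : ℝ) * B ^ (1 / 3 : ℝ)) +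
        b * (A * B) ^ (2 / 3 : ℝ)) * L ^ (A' + 2) := by rw [pow_add]; ring
    _ ≤ 256 * X ^ (1 / 100 : ℝ) * (X ^ (8 / 5 : ℝ) + X ^ (8 / 5 : ℝ)) *
        (K * X ^ (1 / 100 : ℝ)) := by gcongr
    _ = 512 * K * X ^ (1 / 100 + 8 / 5 + 1 / 100 : ℝ) := by
        rw [Real.rpow_add hX0, Real.rpow_add hX0]; ring
    _ ≤ 512 * K * X ^ (5 / 3 : ℝ) := by
        refine mul_le_mul_of_nonneg_left ?_ (by positivity)
        exact Real.rpow_le_rpow_of_exponent_le Q.hX (by norm_num)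

theorem arith4 {X p q a b A B L E C : ℝ} {A' : ℕ} (Q : Cq X p q) (ha : a = X ^ p)
    (hb : b = X ^ q) (hA0 : 0 ≤ A) (hB0 : 0 ≤ B) (hA : A ≤ a) (hB : B ≤ b) (hL : 0 < L)
    (hC : 0 ≤ C) (hE : E ≤ C * A ^ (5 / 3 : ℝ) * B ^ (2 / 3 : ℝ) / L ^ A') :
    b * E * L ^ A' ≤ C * X ^ (5 / 3 : ℝ) := by
  have hX0 : 0 < X := by linarith [Q.hX]
  have ha0 : 0 ≤ a := by rw [ha]; positivity
  have hb0 : 0 ≤ b := by rw [hb]; positivity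
  have e1 : b * (A ^ (5 / 3 : ℝ) * B ^ (2 / 3 : ℝ)) ≤ X ^ (5 / 3 : ℝ) := by
    calc b * (A ^ (5 / 3 : ℝ) * B ^ (2 / 3 : ℝ))
        ≤ b * (a ^ (5 / 3 : ℝ) * b ^ (2 / 3 : ℝ)) := by gcongr
      _ = X ^ (q + (p * (5 / 3) + q * (2 / 3))) := by
          rw [ha, hb, ← Real.rpow_mul hX0.le, ← Real.rpow_mul hX0.le, ← Real.rpow_add hX0,
            ← Real.rpow_add hX0]
      _ ≤ X ^ (5 / 3 : ℝ) := Real.rpow_le_rpow_of_exponent_le Q.hX (by linarith [Q.hpq])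
  have hLA : 0 < L ^ A' := by positivity
  calc b * E * L ^ A' ≤ b * (C * A ^ (5 / 3 : ℝ) * B ^ (2 / 3 : ℝ) / L ^ A') * L ^ A' := by
        gcongr
    _ = C * (b * (A ^ (5 / 3 : ℝ) * B ^ (2 / 3 : ℝ))) := by field_simp
    _ ≤ C * X ^ (5 / 3 : ℝ) := by gcongr

/-- the exponents of a centre block -/
theorem Cp.exists_Cq (P : Cp κ₀ e k κ X i j l) :
    ∃ p q : ℝ, Cq X p q ∧ (2 : ℝ) ^ i = X ^ p ∧ (2 : ℝ) ^ j = X ^ q := by
  have hX0 := P.hX0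
  have hX1' := P.hX1'
  obtain ⟨p, hp⟩ := exists_exp hX1' (show (0 : ℝ) < 2 ^ i by positivity)
  obtain ⟨q, hq⟩ := exists_exp hX1' (show (0 : ℝ) < 2 ^ j by positivity)
  have hp1 : 1 / 2 - κ ≤ p := exp_le hX1' (by rw [← hp]; exact P.hi1)
  have hp2 : p ≤ 1 / 2 + κ := exp_le hX1' (by rw [← hp]; exact P.hi2)
  have hq1 : 1 / 2 - κ ≤ q := exp_le hX1' (by rw [← hq]; exact P.hj1)
  have hpq : p + q ≤ 1 := by
    apply exp_le hX1'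
    rw [Real.rpow_add hX0, ← hp, ← hq, Real.rpow_one, ← pow_add]
    exact P.hij
  have hκ : κ ≤ 1 / 10000 := by rw [P.hκ]; linarith [P.klt]
  exact ⟨p, q, ⟨P.hX1, by linarith, by linarith, by linarith, hpq⟩, hp, hq⟩

/-- large `X` -/
theorem cen_large (hD : DISP.DispStmt) (hNC : NCcen f η κ₀ e) (hcls : Hcls f η) (he : 0 < e)
    (hk : 0 < k) (A' : ℕ) : ∃ C : ℝ, 0 ≤ C ∧
    ∀ (κ X : ℝ) (i j l : ℕ), Cp κ₀ e k κ X i j l → ∀ y₁ y₂ : ℝ,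
    2 ^ j * FS (fun a b => wf (a * b)) (cut (X ^ η) y₁ y₂ (f X)) i j l * Real.log X ^ A' ≤
      C * X ^ (5 / 3 : ℝ) := by
  obtain ⟨C₁, hC₁, h1⟩ := fam_disp hD (ε := 1 / 100) (by norm_num)
  obtain ⟨C₂, hC₂, h2⟩ := ncf_cen hNC hcls he hk A'
  obtain ⟨C₃, hC₃, h3⟩ := EMf_le (ε := 1 / 100) (by norm_num)
  set K : ℝ := (((A' + 2 : ℕ) + 1) / (1 / 100)) ^ (A' + 2) with hK
  have hK0 : 0 ≤ K := by positivity
  refine ⟨C₁ * (2048 * K + C₃ * 512 * K + 512 * K + C₂), by positivity, ?_⟩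
  intro κ X i j l P y₁ y₂
  obtain ⟨p, q, Q, hp, hq⟩ := P.exists_Cq
  have hX := P.hX
  have hX0 := P.hX0
  have hX1 := P.hX1
  have hL1 := P.L1
  have hA1 := P.A_one
  have hB := P.B_pos
  have hAle := P.A_le
  have hcl : ClassG (alc f η X y₁ y₂ i) X (16 * Real.log X) := alc_class hcls hX P.A_le y₁ y₂
  have hncf := h2 κ X i j l P y₁ y₂ (range (⌊2 * ((2 : ℝ) ^ i - 1 / 2)⌋₊ + 1))
  have hB1 : 1 ≤ (2 : ℝ) ^ j - 1 / 2 := by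
    refine le_trans ?_ P.B1
    apply Real.one_le_rpow hX1
    linarith [P.klt, P.hκ]
  have hfam := h1 ((2 : ℝ) ^ i - 1 / 2) ((2 : ℝ) ^ j - 1 / 2) (16 * Real.log X) l
    (alc f η X y₁ y₂ i) hA1 hB1 (by linarith) hcl.bound
    (fun a ha => ⟨⟨(hcl.supp a ha).1, (hcl.supp a ha).2.1⟩, alc_supp ha⟩)
  rw [FS_alc']
  have hle1 : (2 : ℝ) ^ i - 1 / 2 ≤ 2 ^ i := by linarith
  have hle2 : (2 : ℝ) ^ j - 1 / 2 ≤ 2 ^ j := by linarith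
  have hL0 : 0 ≤ Real.log X := by linarith
  have hLK : Real.log X ^ (A' + 2) ≤ K * X ^ (1 / 100 : ℝ) := log_pow_le (by norm_num) _ hX1
  set α := alc f η X y₁ y₂ i with hα
  generalize hN : ∑ s ∈ range (⌊2 * ((2 : ℝ) ^ i - 1 / 2)⌋₊ + 1),
    NCf (blk α l s) ((2 : ℝ) ^ i - 1 / 2) ((2 : ℝ) ^ j - 1 / 2) = E4 at hfam hncf
  generalize hF : FamS wf α 1 ((2 : ℝ) ^ i - 1 / 2) (1 * ((2 : ℝ) ^ j - 1 / 2))
      ((1 + 1) * ((2 : ℝ) ^ j - 1 / 2)) l = F at hfam ⊢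
  have hE1 : ∑ a ∈ SPB (2 * ((2 : ℝ) ^ i - 1 / 2)), ‖α a‖ ^ 2 ≤
      8 * 2 ^ i * (16 * Real.log X) ^ 2 := by
    calc _ ≤ ∑ a ∈ SPB (2 * ((2 : ℝ) ^ i - 1 / 2)), (16 * Real.log X) ^ 2 := by
          gcongr with a ha
          exact hcl.bound a
      _ = (SPB (2 * ((2 : ℝ) ^ i - 1 / 2))).card * (16 * Real.log X) ^ 2 := by
          rw [sum_const, nsmul_eq_mul]
      _ ≤ (4 * (2 * ((2 : ℝ) ^ i - 1 / 2))) * (16 * Real.log X) ^ 2 := by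
          gcongr
          refine le_trans ?_ (card_PB_le (by linarith))
          exact_mod_cast card_le_card SPB_subset_PB
      _ ≤ _ := mul_le_mul_of_nonneg_right (by linarith) (by positivity)
  have hE10 : 0 ≤ ∑ a ∈ SPB (2 * ((2 : ℝ) ^ i - 1 / 2)), ‖α a‖ ^ 2 :=
    sum_nonneg fun _ _ => by positivity
  have hE20 : 0 ≤ EMf α (2 * ((2 : ℝ) ^ i - 1 / 2)) l := EMf_nonneg _ _ _
  have hE2 : EMf α (2 * ((2 : ℝ) ^ i - 1 / 2)) l ≤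
      C₃ * (16 * Real.log X) ^ 2 * (2 * 2 ^ i * X ^ (1 / 100 : ℝ)) := by
    refine (h3 (2 * ((2 : ℝ) ^ i - 1 / 2)) (16 * Real.log X) (by linarith) (by linarith) α l
      hcl.bound).trans ?_
    refine mul_le_mul_of_nonneg_left ?_ (by positivity)
    rw [Real.rpow_add (by linarith), Real.rpow_one]
    have h5 : (2 * ((2 : ℝ) ^ i - 1 / 2)) ^ (1 / 100 : ℝ) ≤ X ^ (1 / 100 : ℝ) :=
      Real.rpow_le_rpow (by linarith) hAle (by norm_num)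
    have h6 : 2 * ((2 : ℝ) ^ i - 1 / 2) ≤ 2 * 2 ^ i := by linarith
    exact mul_le_mul h6 h5 (Real.rpow_nonneg (by linarith) _) (by positivity)
  generalize hE1d : ∑ a ∈ SPB (2 * ((2 : ℝ) ^ i - 1 / 2)), ‖α a‖ ^ 2 = E1 at hfam hE1 hE10
  generalize hE2d : EMf α (2 * ((2 : ℝ) ^ i - 1 / 2)) l = E2 at hfam hE2 hE20
  have t1 := arith1 (B := (2 : ℝ) ^ j - 1 / 2) Q hp hq hle2 hL0 hK0 hLK hE10 hE1
  have t2 := arith2 (B := (2 : ℝ) ^ j - 1 / 2) Q hp hq hle2 hL0 hK0 hC₃ hLK hE20 hE2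
  have t3 := arith3 (A := (2 : ℝ) ^ i - 1 / 2) (B := (2 : ℝ) ^ j - 1 / 2) Q hp hq (by linarith)
    hB.le hle1 hle2 hL0 hK0 hLK
  have t4 := arith4 (A := (2 : ℝ) ^ i - 1 / 2) (B := (2 : ℝ) ^ j - 1 / 2) Q hp hq (by linarith)
    hB.le hle1 hle2 (by linarith) hC₂ hncf
  have hLA : 0 ≤ Real.log X ^ A' := by positivity
  have h2j : (0 : ℝ) ≤ 2 ^ j := by positivity
  calc 2 ^ j * F * Real.log X ^ A' ≤ 2 ^ j * _ * Real.log X ^ A' :=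
        mul_le_mul_of_nonneg_right (mul_le_mul_of_nonneg_left hfam h2j) hLA
    _ = C₁ * (2 ^ j * (((2 : ℝ) ^ j - 1 / 2) * E1) * Real.log X ^ A' +
        2 ^ j * (((2 : ℝ) ^ j - 1 / 2) * E2) * Real.log X ^ A' +
        2 ^ j * ((16 * Real.log X) ^ 2 *
          ((((2 : ℝ) ^ i - 1 / 2) * ((2 : ℝ) ^ j - 1 / 2)) ^ (1 / 100 : ℝ) *
          (((2 : ℝ) ^ i - 1 / 2) ^ (11 / 6 : ℝ) * ((2 : ℝ) ^ j - 1 / 2) ^ (1 / 3 : ℝ) +
          (((2 : ℝ) ^ i - 1 / 2) * ((2 : ℝ) ^ j - 1 / 2)) ^ (2 / 3 : ℝ)))) * Real.log X ^ A' +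
        2 ^ j * E4 * Real.log X ^ A') := by ring
    _ ≤ C₁ * (2048 * K * X ^ (5 / 3 : ℝ) + C₃ * 512 * K * X ^ (5 / 3 : ℝ) +
        512 * K * X ^ (5 / 3 : ℝ) + C₂ * X ^ (5 / 3 : ℝ)) :=
        mul_le_mul_of_nonneg_left (add_le_add (add_le_add (add_le_add t1 t2) t3) t4) hC₁
    _ = _ := by ring

/-- **Dispersion in the centre** from the non-cube bound in the centre. -/
theorem cenDN_of (hD : DISP.DispStmt) (hκ₀ : 0 < κ₀) (he : 0 < e) (he1 : e ≤ 1)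
    (hNC : NCcen f η κ₀ e) (hcls : Hcls f η) :
    CenDN f η (min κ₀ (e / 100) / 100) e := by
  intro A'
  set k : ℝ := min κ₀ (e / 100) with hk
  have hk0 : 0 < k := lt_min hκ₀ (by positivity)
  have hk1 : k ≤ κ₀ := min_le_left _ _
  have hk2 : k ≤ e / 100 := min_le_right _ _
  set X₀ : ℝ := max 3 ((2 : ℝ) ^ (1000 / k)) with hX₀
  obtain ⟨C₁, hC₁, h1⟩ := cen_small hcls (le_max_left _ _ : 3 ≤ X₀) A'
  obtain ⟨C₂, hC₂, h2⟩ := cen_large hD hNC hcls he hk0 A'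
  refine ⟨C₁ + C₂, by positivity, ?_⟩
  intro X hX y₁ y₂ i j l hi1 hi2 hj1 hij hl
  have hX0 : 0 < X := by linarith
  have hL1 : 1 ≤ Real.log X := by
    rw [Real.le_log_iff_exp_le hX0]
    exact (Real.exp_one_lt_d9.le.trans (by norm_num)).trans hX
  have hj : 1 ≤ j := by
    by_contra hj
    have hj0 : j = 0 := by omega
    rw [hj0, pow_zero] at hj1
    have : 1 < X ^ (1 / 2 - k / 100) := Real.one_lt_rpow (by linarith) (by linarith)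
    linarith
  have hXp : 0 ≤ X ^ (5 / 3 : ℝ) := by positivity
  rw [le_div_iff₀ (by positivity)]
  have key : 2 ^ j * FS (fun a b => wf (a * b)) (cut (X ^ η) y₁ y₂ (f X)) i j l *
      Real.log X ^ A' ≤ (C₁ + C₂) * X ^ (5 / 3 : ℝ) := by
    rcases le_or_gt X X₀ with hXX | hXX
    · refine (h1 X hX hXX y₁ y₂ i j l hj hij).trans ?_
      gcongr
      linarith
    · have P : Cp κ₀ e k (k / 100) X i j l :=
        ⟨hX, hκ₀, he, he1, hk0, hk1, hk2, rfl, (le_max_right _ _).trans hXX.le, hi1, hi2, hj1,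
          hij, hl⟩
      refine (h2 (k / 100) X i j l P y₁ y₂).trans ?_
      gcongr
      linarith
  linarith

end Vale.Agent.P006.TIIC
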