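import Vale.Agent.P006.TIIC.Defs
import Vale.Agent.P006.H845.Sieve

/-!
P006, block TIIC (helper570): reduction of the bilinear sums to the block sums `TL`, and bounds
for `TL` (Cauchy-Schwarz, trivial, splitting of the kernel).
-/

namespace Vale.Agent.P006.TIIC

open Finset H611 DN

theorem kap_le_one : kap ≤ 1 := by
  unfold kap
  have h3 : (1.7 : ℝ) ≤ Real.sqrt 3 := by
    rw [Real.le_sqrt (by norm_num) (by norm_num)]; norm_num
  rw [div_le_one (by positivity)]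
  nlinarith [Real.pi_lt_d2]

theorem card_blk_le (i l s : ℕ) :
    (((DB i).filter (fun a => N a / 2 ^ l = s)).card : ℝ) ≤ 60 * (2 ^ l + √(2 ^ i)) := by
  classical
  rcases (((DB i).filter (fun a => N a / 2 ^ l = s))).eq_empty_or_nonempty with h0 | ⟨a, ha⟩
  · rw [h0]; simp; positivity
  have hs : s * 2 ^ l < 2 ^ (i + 1) := by
    rw [mem_filter] at ha
    have h1 := (DB_bounds ha.1).2
    have h2 : s * 2 ^ l ≤ N a := by rw [← ha.2]; exact Nat.div_mul_le_self _ _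
    omega
  set x : ℝ := |(s : ℝ) * 2 ^ l - 1 / 2| with hx
  have hx0 : 0 ≤ x := abs_nonneg _
  have hxle : x ≤ s * 2 ^ l + 1 / 2 := by
    have h4 : (0 : ℝ) ≤ (s : ℝ) * 2 ^ l := by positivity
    rw [hx, abs_le]
    constructor
    · linarith
    · linarith
  have hsub : (DB i).filter (fun a => N a / 2 ^ l = s) ⊆
      ((PB (x + 2 ^ l)).filter (fun a => x < N a)).filter (fun a => (1 : O) ∣ a) := by
    intro b hb
    rw [mem_filter, mem_DB] at hb
    obtain ⟨⟨h1, _, _⟩, h2⟩ := hb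
    have hpos : 0 < 2 ^ l := by positivity
    have h3 : s * 2 ^ l ≤ N b := by rw [← h2]; exact Nat.div_mul_le_self _ _
    have h4 : N b < (s + 1) * 2 ^ l := by
      rw [← h2, mul_comm]; exact Nat.lt_mul_div_succ _ hpos
    have hN1 : 1 ≤ N b := h1.one_le_N
    have h3' : (s : ℝ) * 2 ^ l ≤ N b := by exact_mod_cast h3
    have h4' : (N b : ℝ) + 1 ≤ (s + 1) * 2 ^ l := by exact_mod_cast h4
    have hN1' : (1 : ℝ) ≤ N b := by exact_mod_cast hN1
    rw [mem_filter, mem_filter, mem_PB]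
    refine ⟨⟨⟨h1, ?_⟩, ?_⟩, one_dvd _⟩
    · have : (s : ℝ) * 2 ^ l - 1 / 2 ≤ x := le_abs_self _
      linarith
    · have h40 : (0 : ℝ) ≤ (s : ℝ) * 2 ^ l := by positivity
      rw [hx, abs_lt]
      constructor <;> linarith
  have h5 := card_block_multiples hx0 (show (0 : ℝ) ≤ 2 ^ l by positivity) primary_one
  rw [N_one, Nat.cast_one, div_one] at h5
  have h6 := (abs_le.1 h5).2
  have h7 : (((DB i).filter (fun a => N a / 2 ^ l = s)).card : ℝ) ≤
      (((PB (x + 2 ^ l)).filter (fun a => x < N a)).filter (fun a => (1 : O) ∣ a)).card := by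
    exact_mod_cast card_le_card hsub
  have h8 : x + 2 ^ l ≤ 4 * (2 ^ i + 2 ^ l) := by
    have : (s : ℝ) * 2 ^ l ≤ 2 ^ (i + 1) := by exact_mod_cast hs.le
    have h1i : (1 : ℝ) ≤ 2 ^ i := one_le_pow₀ (by norm_num)
    rw [pow_succ] at this
    have : (0 : ℝ) ≤ 2 ^ l := by positivity
    linarith
  have h9 : Real.sqrt (x + 2 ^ l) ≤ 2 * (√(2 ^ i) + 2 ^ l) := by
    have h1l : (1 : ℝ) ≤ 2 ^ l := one_le_pow₀ (by norm_num)
    calc Real.sqrt (x + 2 ^ l) ≤ Real.sqrt (4 * (2 ^ i + 2 ^ l)) := Real.sqrt_le_sqrt h8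
      _ = 2 * Real.sqrt (2 ^ i + 2 ^ l) := by
          rw [Real.sqrt_mul (by norm_num), show (4 : ℝ) = 2 ^ 2 by norm_num,
            Real.sqrt_sq (by norm_num)]
      _ ≤ 2 * (√(2 ^ i) + √(2 ^ l)) := by
          have : √((2 : ℝ) ^ i + 2 ^ l) ≤ √(2 ^ i) + √(2 ^ l) := by
            rw [Real.sqrt_le_left (by positivity)]
            have e1 := Real.sq_sqrt (show (0 : ℝ) ≤ 2 ^ i by positivity)
            have e2 := Real.sq_sqrt (show (0 : ℝ) ≤ 2 ^ l by positivity)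
            have e3 : 0 ≤ √((2 : ℝ) ^ i) * √(2 ^ l) := by positivity
            nlinarith
          linarith
      _ ≤ 2 * (√(2 ^ i) + 2 ^ l) := by
          have : √((2 : ℝ) ^ l) ≤ 2 ^ l := by
            rw [Real.sqrt_le_left (by positivity)]
            nlinarith
          linarith
  have h10 : kap * 2 ^ l ≤ 2 ^ l := by
    have := kap_le_one
    have h2 : (0 : ℝ) ≤ 2 ^ l := by positivity
    nlinarith
  have h1i : (1 : ℝ) ≤ √(2 ^ i) := by
    rw [Real.one_le_sqrt]; exact one_le_pow₀ (by norm_num)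
  have h1l : (1 : ℝ) ≤ 2 ^ l := one_le_pow₀ (by norm_num)
  linarith

theorem sum_card_fib (j : ℕ) (f : O → ℕ) (n : ℕ) :
    ∑ s ∈ range n, (((DB j).filter (fun b => f b = s + 1)).card : ℝ) ≤ 8 * 2 ^ j := by
  classical
  refine le_trans ?_ (card_DB_le j)
  have h1 : ∑ s ∈ range n, ((DB j).filter (fun b => f b = s + 1)).card ≤ (DB j).card := by
    rw [← card_biUnion]
    · exact card_le_card (biUnion_subset.2 fun s _ => filter_subset _ _)
    · intro s _ t _ hst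
      rw [Function.onFun, disjoint_left]
      intro b hb hb'
      rw [mem_filter] at hb hb'
      exact hst (by omega)
  exact_mod_cast h1

theorem TL_nonneg (D : O → O → ℂ) (α β : O → ℂ) (x : ℝ) (i j l : ℕ) :
    0 ≤ TL D α β x i j l := sum_nonneg fun _ _ => norm_nonneg _

/-- Cauchy-Schwarz -/
theorem TL_le_cs {D : O → O → ℂ} {α β : O → ℂ} {x : ℝ} {i j l : ℕ} (hβ : ∀ b, ‖β b‖ ≤ 1) :
    TL D α β x i j l ≤ √(8 * 2 ^ j) * √(FS D α i j l) := by
  classical
  set Y : O → ℕ := fun b => (⌊x / N b⌋₊ + 1) / 2 ^ l with hY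
  set g : ℕ → O → ℝ := fun s b => ‖∑ a ∈ DB i with N a / 2 ^ l = s, α a * D a b‖ with hg
  have h1 : TL D α β x i j l ≤
      ∑ s ∈ range (2 ^ (i + 1)), ∑ b ∈ DB j, (if Y b = s + 1 then 1 else 0) * g s b := by
    rw [TL]
    refine sum_le_sum fun s _ => ?_
    refine (norm_sum_le _ _).trans ?_
    rw [sum_filter]
    refine sum_le_sum fun b _ => ?_
    by_cases hb : (⌊x / N b⌋₊ + 1) / 2 ^ l = s + 1
    · rw [if_pos hb, if_pos hb, one_mul]
      have e : ∑ a ∈ DB i with N a / 2 ^ l = s, α a * β b * D a b =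
          β b * ∑ a ∈ DB i with N a / 2 ^ l = s, α a * D a b := by
        rw [mul_sum]; exact sum_congr rfl fun a _ => by ring
      rw [e, norm_mul]
      exact mul_le_of_le_one_left (norm_nonneg _) (hβ b)
    · rw [if_neg hb, if_neg hb, zero_mul]
  refine h1.trans ?_
  rw [← sum_product']
  refine (Real.sum_mul_le_sqrt_mul_sqrt _ _ _).trans ?_
  refine mul_le_mul (Real.sqrt_le_sqrt ?_) (Real.sqrt_le_sqrt ?_) (Real.sqrt_nonneg _)
    (Real.sqrt_nonneg _)
  · rw [sum_product]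
    refine le_trans (le_of_eq ?_) (sum_card_fib j Y (2 ^ (i + 1)))
    refine sum_congr rfl fun s _ => ?_
    rw [card_filter]
    push_cast
    refine sum_congr rfl fun b _ => ?_
    by_cases hb : Y b = s + 1 <;> simp [hb]
  · rw [sum_product, FS]

/-- trivial bound -/
theorem TL_le_trivial {D : O → O → ℂ} {α β : O → ℂ} {x : ℝ} {i j l : ℕ} {M G : ℝ}
    (hG : 0 ≤ G) (hM : 0 ≤ M)
    (hD : ∀ a ∈ DB i, ∀ b ∈ DB j, ‖D a b‖ ≤ M) (hα : ∀ a, ‖α a‖ ≤ G) (hβ : ∀ b, ‖β b‖ ≤ 1) :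
    TL D α β x i j l ≤ G * M * (8 * 2 ^ j) * (60 * (2 ^ l + √(2 ^ i))) := by
  classical
  set K : ℝ := 60 * (2 ^ l + √(2 ^ i)) with hK
  have hK0 : 0 ≤ K := by positivity
  have h1 : TL D α β x i j l ≤ ∑ s ∈ range (2 ^ (i + 1)),
      (((DB j).filter (fun b => (⌊x / N b⌋₊ + 1) / 2 ^ l = s + 1)).card : ℝ) * (K * (G * M)) := by
    rw [TL]
    refine sum_le_sum fun s _ => ?_
    refine (norm_sum_le _ _).trans ?_
    rw [← nsmul_eq_mul, ← sum_const]
    refine sum_le_sum fun b hb => ?_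
    refine (norm_sum_le _ _).trans ?_
    have h2 : ∀ a ∈ (DB i).filter (fun a => N a / 2 ^ l = s), ‖α a * β b * D a b‖ ≤ G * M := by
      intro a ha
      rw [norm_mul, norm_mul]
      have h3 : ‖α a‖ * ‖β b‖ ≤ G := by
        calc ‖α a‖ * ‖β b‖ ≤ G * 1 := mul_le_mul (hα a) (hβ b) (norm_nonneg _) hG
          _ = G := mul_one G
      exact mul_le_mul h3 (hD a (mem_filter.1 ha).1 b (mem_filter.1 hb).1) (norm_nonneg _) hG
    refine (sum_le_sum h2).trans ?_
    rw [sum_const, nsmul_eq_mul]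
    exact mul_le_mul_of_nonneg_right (card_blk_le i l s) (by positivity)
  refine h1.trans ?_
  rw [← sum_mul]
  have h4 := sum_card_fib j (fun b => (⌊x / N b⌋₊ + 1) / 2 ^ l) (2 ^ (i + 1))
  calc _ ≤ (8 * 2 ^ j) * (K * (G * M)) := mul_le_mul_of_nonneg_right h4 (by positivity)
    _ = _ := by ring

theorem TL_sub_le {D D₁ D₂ : O → O → ℂ} {α β : O → ℂ} {x : ℝ} {i j l : ℕ}
    (h : ∀ a ∈ DB i, ∀ b ∈ DB j, D a b = D₁ a b - D₂ a b) :
    TL D α β x i j l ≤ TL D₁ α β x i j l + TL D₂ α β x i j l := by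
  rw [TL, TL, TL, ← sum_add_distrib]
  refine sum_le_sum fun s _ => ?_
  have e : ∑ b ∈ DB j with (⌊x / N b⌋₊ + 1) / 2 ^ l = s + 1,
      ∑ a ∈ DB i with N a / 2 ^ l = s, α a * β b * D a b =
      ∑ b ∈ DB j with (⌊x / N b⌋₊ + 1) / 2 ^ l = s + 1,
        ∑ a ∈ DB i with N a / 2 ^ l = s, α a * β b * D₁ a b -
      ∑ b ∈ DB j with (⌊x / N b⌋₊ + 1) / 2 ^ l = s + 1,
        ∑ a ∈ DB i with N a / 2 ^ l = s, α a * β b * D₂ a b := by
    rw [← sum_sub_distrib]
    refine sum_congr rfl fun b hb => ?_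
    rw [← sum_sub_distrib]
    refine sum_congr rfl fun a ha => ?_
    rw [h a (mem_filter.1 ha).1 b (mem_filter.1 hb).1]; ring
  rw [e]
  exact norm_sub_le _ _

open Classical in
theorem TL_Dg_le {α β : O → ℂ} {x : ℝ} {i j l : ℕ} {G T : ℝ} (hG : 0 < G)
    (hα : ∀ a, ‖α a‖ ≤ G) (hβ : ∀ b, ‖β b‖ ≤ 1)
    (hT : ∀ α' β' : O → ℂ, (∀ a, ‖α' a‖ ≤ 1) → (∀ b, ‖β' b‖ ≤ 1) →
      TL (fun a b => (starRingEnd ℂ) (toC (sym a b))) α' β' x i j l ≤ T) :
    TL Dg α β x i j l ≤ G * T := by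
  set α' : O → ℂ := fun a => if InP a then α a * gt 1 a / G else 0 with hα'
  set β' : O → ℂ := fun b => if InP b then β b * gt 1 b else 0 with hβ'
  have h1 : ∀ a, ‖α' a‖ ≤ 1 := by
    intro a
    rw [hα']; simp only
    split_ifs with h
    · rw [norm_div, norm_mul, norm_gt_one h, mul_one, Complex.norm_real, Real.norm_of_nonneg hG.le,
        div_le_one hG]
      exact hα a
    · simp
  have h2 : ∀ b, ‖β' b‖ ≤ 1 := by
    intro b
    rw [hβ']; simp only
    split_ifs with h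
    · rw [norm_mul, norm_gt_one h, mul_one]; exact hβ b
    · simp
  have h3 := hT α' β' h1 h2
  have h4 : TL Dg α β x i j l =
      G * TL (fun a b => (starRingEnd ℂ) (toC (sym a b))) α' β' x i j l := by
    rw [TL, TL, mul_sum]
    refine sum_congr rfl fun s _ => ?_
    have e : ∑ b ∈ DB j with (⌊x / N b⌋₊ + 1) / 2 ^ l = s + 1,
        ∑ a ∈ DB i with N a / 2 ^ l = s, α a * β b * Dg a b =
        (G : ℂ) * ∑ b ∈ DB j with (⌊x / N b⌋₊ + 1) / 2 ^ l = s + 1,
        ∑ a ∈ DB i with N a / 2 ^ l = s, α' a * β' b * (starRingEnd ℂ) (toC (sym a b)) := by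
      rw [mul_sum]
      refine sum_congr rfl fun b hb => ?_
      rw [mul_sum]
      refine sum_congr rfl fun a ha => ?_
      have ha' := inP_of_mem_DB (mem_filter.1 ha).1
      have hb' := inP_of_mem_DB (mem_filter.1 hb).1
      have hG' : (G : ℂ) ≠ 0 := by exact_mod_cast hG.ne'
      rw [hα', hβ']
      simp only
      rw [if_pos ha', if_pos hb', Dg]
      field_simp
    rw [e, norm_mul, Complex.norm_real, Real.norm_of_nonneg hG.le]
  rw [h4]
  exact mul_le_mul_of_nonneg_left h3 hG.le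

/-- **Reduction**: the bilinear sum with coupling is bounded by localised block sums. -/
theorem bil_le_TL {w α β : O → ℂ} {x : ℝ} (hx : 1 ≤ x) {M : ℕ} (hM : x < 2 ^ M)
    (hα : ∀ a, α a ≠ 0 → Primary a ∧ Squarefree a)
    (hβ : ∀ b, β b ≠ 0 → Primary b ∧ Squarefree b) :
    ‖Bil w α β x‖ ≤ ∑ i ∈ range M, ∑ j ∈ range M, if (2 : ℝ) ^ (i + j) ≤ x then
      ∑ l ∈ range (M + 1), TL (fun a b => w (a * b)) α β x i j l else 0 := by
  classical
  have hx0 : 0 < x := by linarith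
  have hY : ∀ b : O, Primary b → ∀ a : O, (N a < ⌊x / N b⌋₊ + 1 ↔ (N a : ℝ) * N b ≤ x) := by
    intro b hb a
    have hb0 : (0 : ℝ) < N b := by exact_mod_cast N_pos hb.ne_zero
    rw [Nat.lt_succ_iff, Nat.le_floor_iff (by positivity), le_div_iff₀ hb0]
  have e1 : Bil w α β x = ∑ b ∈ PB x, ∑ a ∈ PB x,
      if (N a : ℝ) * N b ≤ x then α a * β b * w (a * b) else 0 := by
    rw [Bil, sum_comm]
    refine sum_congr rfl fun a ha => ?_
    rw [mem_PB] at ha
    have ha0 : (0 : ℝ) < N a := by exact_mod_cast N_pos ha.1.ne_zero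
    rw [mul_sum, ← sum_filter]
    refine sum_congr ?_ fun b _ => by ring
    ext b
    rw [mem_PB, mem_filter, mem_PB]
    rw [le_div_iff₀ ha0]
    constructor
    · rintro ⟨h1, h2⟩
      refine ⟨⟨h1, ?_⟩, by linarith⟩
      have := ha.1.one_le_N'
      have hb1 := h1.one_le_N'
      nlinarith
    · rintro ⟨⟨h1, _⟩, h2⟩
      exact ⟨h1, by linarith⟩
  have e2 : ∀ b ∈ PB x, ∑ a ∈ PB x, (if (N a : ℝ) * N b ≤ x then α a * β b * w (a * b) else 0) =
      ∑ i ∈ range M, ∑ a ∈ DB i, if (N a : ℝ) * N b ≤ x then α a * β b * w (a * b) else 0 := by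
    intro b hb
    rw [mem_PB] at hb
    refine sum_dyadic hM _ fun a ha => ?_
    rw [ne_eq, ite_eq_right_iff, Classical.not_imp] at ha
    have ha2 : α a ≠ 0 := by
      intro h; apply ha.2; rw [h]; ring
    refine ⟨(hα a ha2).1, (hα a ha2).2, ?_⟩
    have h1 := (hα a ha2).1.one_le_N'
    have h2 := hb.1.one_le_N'
    nlinarith [ha.1]
  rw [e1, sum_congr rfl e2]
  have e3 : ∑ b ∈ PB x, ∑ i ∈ range M, ∑ a ∈ DB i,
      (if (N a : ℝ) * N b ≤ x then α a * β b * w (a * b) else 0) =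
      ∑ j ∈ range M, ∑ b ∈ DB j, ∑ i ∈ range M, ∑ a ∈ DB i,
      (if (N a : ℝ) * N b ≤ x then α a * β b * w (a * b) else 0) := by
    refine sum_dyadic hM _ fun b hb => ?_
    obtain ⟨i, _, hi⟩ := exists_ne_zero_of_sum_ne_zero hb
    obtain ⟨a, _, ha⟩ := exists_ne_zero_of_sum_ne_zero hi
    rw [ne_eq, ite_eq_right_iff, Classical.not_imp] at ha
    have ha2 : α a ≠ 0 := by
      intro h; apply ha.2; rw [h]; ring
    have hb2 : β b ≠ 0 := by
      intro h; apply ha.2; rw [h]; ring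
    refine ⟨(hβ b hb2).1, (hβ b hb2).2, ?_⟩
    have h1 := (hα a ha2).1.one_le_N'
    have h2 := (hβ b hb2).1.one_le_N'
    nlinarith [ha.1]
  rw [e3]
  have e4 : ∑ j ∈ range M, ∑ b ∈ DB j, ∑ i ∈ range M, ∑ a ∈ DB i,
      (if (N a : ℝ) * N b ≤ x then α a * β b * w (a * b) else 0) =
      ∑ i ∈ range M, ∑ j ∈ range M, ∑ b ∈ DB j, ∑ a ∈ DB i,
      (if (N a : ℝ) * N b ≤ x then α a * β b * w (a * b) else 0) := by
    have : ∀ j ∈ range M, ∑ b ∈ DB j, ∑ i ∈ range M, ∑ a ∈ DB i,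
      (if (N a : ℝ) * N b ≤ x then α a * β b * w (a * b) else 0) =
      ∑ i ∈ range M, ∑ b ∈ DB j, ∑ a ∈ DB i,
      (if (N a : ℝ) * N b ≤ x then α a * β b * w (a * b) else 0) := fun j _ => sum_comm
    rw [sum_congr rfl this, sum_comm]
  rw [e4]
  refine (norm_sum_le _ _).trans (sum_le_sum fun i _ => (norm_sum_le _ _).trans
    (sum_le_sum fun j _ => ?_))
  split_ifs with hij
  · have e5 : ∑ b ∈ DB j, ∑ a ∈ DB i,
        (if (N a : ℝ) * N b ≤ x then α a * β b * w (a * b) else 0) =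
        ∑ b ∈ DB j, ∑ a ∈ DB i with N a < ⌊x / N b⌋₊ + 1, α a * β b * w (a * b) := by
      refine sum_congr rfl fun b hb => ?_
      have hb' := mem_DB.1 hb
      rw [sum_filter]
      refine sum_congr rfl fun a _ => ?_
      simp only [hY b hb'.1 a]
    rw [e5]
    have hYL : ∀ b ∈ DB j, ⌊x / N b⌋₊ + 1 < 2 ^ (M + 1) := by
      intro b hb
      have hb' := mem_DB.1 hb
      have h1 : ⌊x / N b⌋₊ ≤ ⌊x⌋₊ := Nat.floor_mono (div_le_self hx0.le hb'.1.one_le_N')
      have h2 : ⌊x⌋₊ < 2 ^ M := by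
        rw [Nat.floor_lt hx0.le]; push_cast; exact hM
      have h3 : 1 ≤ ⌊x⌋₊ := by rw [Nat.one_le_floor_iff]; exact hx
      rw [pow_succ]; omega
    rw [chain_blocks (DB i) (DB j) (fun a => N a) (fun b => ⌊x / N b⌋₊ + 1)
      (fun a b => α a * β b * w (a * b)) hYL]
    refine (norm_sum_le _ _).trans (sum_le_sum fun l _ => ?_)
    refine (norm_sum_le _ _).trans ?_
    rw [TL]
    have hz : ∀ s, s ∉ range (2 ^ (i + 1)) →
        ‖∑ b ∈ DB j with (⌊x / N b⌋₊ + 1) / 2 ^ l = s + 1,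
          ∑ a ∈ DB i with N a / 2 ^ l = s, α a * β b * w (a * b)‖ = 0 := by
      intro s hs
      rw [norm_eq_zero]
      refine sum_eq_zero fun b _ => ?_
      have : (DB i).filter (fun a => N a / 2 ^ l = s) = ∅ := by
        rw [filter_eq_empty_iff]
        intro a ha h
        apply hs
        rw [mem_range, ← h]
        exact (Nat.div_le_self _ _).trans_lt (DB_bounds ha).2
      rw [this, sum_empty]
    refine (sum_le_sum_of_subset_of_nonneg (subset_union_left (s₂ := range (2 ^ (i + 1))))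
      fun s _ _ => norm_nonneg _).trans (le_of_eq ?_)
    symm
    exact sum_subset subset_union_right fun s _ hs => hz s hs
  · refine le_of_eq ?_
    rw [norm_eq_zero]
    refine sum_eq_zero fun b hb => sum_eq_zero fun a ha => ?_
    rw [if_neg]
    intro h
    apply hij
    have h1 := (DB_bounds ha).1
    have h2 := (DB_bounds hb).1
    have h3 : 2 ^ (i + j) ≤ N a * N b := by rw [pow_add]; exact Nat.mul_le_mul h1 h2
    calc (2 : ℝ) ^ (i + j) = ((2 ^ (i + j) : ℕ) : ℝ) := by push_cast; ring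
      _ ≤ ((N a * N b : ℕ) : ℝ) := by exact_mod_cast h3
      _ = (N a : ℝ) * N b := by push_cast; ring
      _ ≤ x := h

end Vale.Agent.P006.TIIC
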