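import Vale.Agent.P006.TIIC.Final
import Vale.Agent.P006.LVC.NCcq
import Vale.Agent.P006.LVC.NClamb

/-!
P006, block TIIC (helper570, helper211, helper6): the centre goal, unconditional.
-/

namespace Vale.Agent.P006.TIIC

theorem ncCenGoal : NCcenGoal := by
  intro η hη hη3
  constructor
  · obtain ⟨κ0, h1, e0, h2, h⟩ := LVC.tiic_nccen_lamb hη hη3
    exact ⟨κ0, e0, h1, h2, h κ0 e0 h1 le_rfl h2 le_rfl⟩
  · obtain ⟨κ0, h1, e0, h2, h⟩ := LVC.tiic_nccen_cq hη
    exact ⟨κ0, e0, h1, h2, h κ0 e0 h1 le_rfl h2 le_rfl⟩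

/-- **The centre**: interior-centre Type II bounds, unconditional given the dispersion theorem. -/
theorem centreGoal : CentreGoal := centreGoal_of ncCenGoal

end Vale.Agent.P006.TIIC
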