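import Vale.Agent.P006.TIIC.Defs2
import Vale.Agent.P006.DN.NCgen

/-!
P006, block TIIC (helper570): Siegel–Walfisz hypotheses for the blocks in the centre, and the three
ranges of `t`.
-/

namespace Vale.Agent.P006.TIIC

open scoped Classical
open Finset H611 DN

/-- the trivial Siegel–Walfisz hypothesis -/
theorem swhyp_triv {α : O → ℂ} {A G σ t : ℝ} (hA : 1 ≤ A) (hG : 1 ≤ G) (hσ : σ ≤ 3 / 2)
    (hα : ∀ a, ‖α a‖ ≤ G) (hs : ∀ a, α a ≠ 0 → Primary a ∧ A < (N a : ℝ) ∧ (N a : ℝ) ≤ 2 * A)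
    (l : ℕ) (S : Finset ℕ) (H Q0 J0 : ℝ) :
    NC.SWhyp S (fun s => gam α l A G σ t s) (2 * A) H Q0 J0 4 := by
  have hfam := gam_fam (σ := σ) (t := t) (by linarith : 0 < A) hG hσ hα hs l S
  intro s hsS j hj u _ l' _ k1 k2 n _ _ _ _ _ _ _
  have hj0 : (0 : ℝ) < N j := by exact_mod_cast N_pos (NC.mem_PB.1 hj).2.ne_zero
  have hj1 : (1 : ℝ) ≤ N j := (NC.mem_PB.1 hj).2.1.one_le_N'
  rw [NC.inner, NC.Fs]
  calc ‖∑ r ∈ NC.PB (2 * A / N j), gam α l A G σ t s (j * r) * NC.ch r (NC.rep u l' k1 k2 n)‖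
      ≤ ∑ r ∈ NC.PB (2 * A / N j), 1 := by
        refine (norm_sum_le _ _).trans (sum_le_sum fun r _ => ?_)
        rw [norm_mul]
        have h1 : ‖gam α l A G σ t s (j * r)‖ ≤ 1 :=
          (single_le_sum (f := fun s => ‖gam α l A G σ t s (j * r)‖)
            (fun _ _ => norm_nonneg _) hsS).trans (hfam _)
        have h2 : ‖NC.ch r (NC.rep u l' k1 k2 n)‖ ≤ 1 := norm_sym_le _ _
        calc _ ≤ (1 : ℝ) * 1 := mul_le_mul h1 h2 (norm_nonneg _) (by norm_num)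
          _ = 1 := one_mul _
    _ = (NC.PB (2 * A / N j)).card := by simp
    _ ≤ 4 * (2 * A / N j) := by
        rw [NC.PB_eq_SPB]
        refine le_trans ?_ (card_PB_le (by positivity))
        exact_mod_cast card_le_card SPB_subset_PB
    _ ≤ 4 * (2 * A) := by
        have : 2 * A / N j ≤ 2 * A := div_le_self (by linarith) hj1
        linarith

/-- the Siegel–Walfisz hypothesis for the scaled twisted blocks -/
theorem swhyp_log (Aw Cw : ℕ) : ∃ c0 : ℝ, 0 ≤ c0 ∧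
    ∀ X A G t σ : ℝ, 3 ≤ X → X ^ (1 / 3 : ℝ) ≤ A → A ≤ X → 1 ≤ G → σ ≤ 3 / 2 →
      |t| ≤ Real.log X ^ Cw → ∀ α : O → ℂ, ClassG α X G →
      (∀ a, α a ≠ 0 → A < (N a : ℝ) ∧ (N a : ℝ) ≤ 2 * A) →
      ∀ (l : ℕ) (S : Finset ℕ) (H Q0 J0 : ℝ), H ≤ X → 0 ≤ Q0 → J0 ≤ Real.log X ^ Cw →
      9 * Q0 ^ 2 ≤ Real.log X ^ Cw →
      NC.SWhyp S (fun s => gam α l A G σ t s) (2 * A) H Q0 J0 (c0 / Real.log X ^ Aw) := by
  obtain ⟨c0, hc0, h⟩ := SW_twc (δ := 1 / 3) (by norm_num) Aw Cw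
  refine ⟨c0, hc0, ?_⟩
  intro X A G t σ hX hA hAX hG hσ ht α hα hs l S H Q0 J0 hHX hQ0 hJ0 hQ
  have hX0 : 0 < X := by linarith
  have hA0 : 0 < A := lt_of_lt_of_le (by positivity) hA
  have hL1 : 1 ≤ Real.log X := by
    rw [Real.le_log_iff_exp_le hX0]
    exact (Real.exp_one_lt_d9.le.trans (by norm_num)).trans hX
  intro s _ j hj u hu l' hl k1 k2 n hk1 hk2 _ hQ' hn hnH hcube
  have hjS := NC.mem_PB.1 hj
  have n1 := NC.one_le_N hk1.ne_zero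
  have n2 := NC.one_le_N hk2.ne_zero
  have n3 := NC.one_le_N hn
  have hnle : (N n : ℝ) ≤ X := by
    calc (N n : ℝ) ≤ (N n : ℝ) ^ 3 := by
          nlinarith [mul_self_nonneg ((N n : ℝ) - 1), mul_self_nonneg ((N n : ℝ))]
      _ = 1 * 1 * (N n : ℝ) ^ 3 := by ring
      _ ≤ (N k1 : ℝ) * (N k2 : ℝ) ^ 2 * (N n : ℝ) ^ 3 := by
          have : (1 : ℝ) ≤ (N k2 : ℝ) ^ 2 := one_le_pow₀ n2
          gcongr
      _ ≤ H := hnH
      _ ≤ X := hHX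
  have hk0 : (N (u * lam ^ l' * (k1 * k2 ^ 2)) : ℝ) ≤ Real.log X ^ Cw :=
    (NC.N_rep_core_le hu hl hk1 hk2 hQ').trans hQ
  have hcube' : ¬ ∃ m : O, u * lam ^ l' * (k1 * k2 ^ 2) = m ^ 3 := by
    rintro ⟨e, he⟩
    apply hcube
    refine ⟨e * n, ?_⟩
    unfold NC.rep
    rw [he]; ring
  have h1 := h X A (4 * G) t σ hX hA hAX (blk α l s) (blk_class hα l s)
    (fun a ha => hs a (blk_ne_zero ha)) hσ ht j hjS.2.1 (hjS.1.trans hJ0)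
    (u * lam ^ l' * (k1 * k2 ^ 2)) n hn hnle hcube' hk0
  rw [NC.inner, NC.Fs, NC.PB_eq_SPB]
  have e1 : ∑ r ∈ SPB (2 * A / N j), gam α l A G σ t s (j * r) * NC.ch r (NC.rep u l' k1 k2 n) =
      (((4 * G)⁻¹ : ℝ) : ℂ) * ∑ r ∈ SPB (2 * A / N j), twc (blk α l s) A σ t (j * r) *
        toC (sym (u * lam ^ l' * (k1 * k2 ^ 2) * n ^ 3) r) := by
    rw [mul_sum]
    refine sum_congr rfl fun r _ => ?_
    rw [gam, NC.ch, NC.rep]
    ring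
  rw [e1, norm_mul, Complex.norm_real, Real.norm_of_nonneg (by positivity)]
  calc (4 * G)⁻¹ * ‖∑ r ∈ SPB (2 * A / N j), twc (blk α l s) A σ t (j * r) *
        toC (sym (u * lam ^ l' * (k1 * k2 ^ 2) * n ^ 3) r)‖
      ≤ (4 * G)⁻¹ * (c0 * (4 * G) * A / Real.log X ^ Aw) := by gcongr
    _ = c0 / Real.log X ^ Aw * A := by
        have : G ≠ 0 := by positivity
        field_simp
    _ ≤ c0 / Real.log X ^ Aw * (2 * A) := by
        gcongr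
        linarith

/-- parameters in the centre; `Y = 2 A`, `k` is the width of the `H`-range, `2 = X^h` -/
structure Cp (κ₀ e k κ X : ℝ) (i j l : ℕ) : Prop where
  hX : 3 ≤ X
  hκ₀ : 0 < κ₀
  he : 0 < e
  he1 : e ≤ 1
  hk : 0 < k
  hk1 : k ≤ κ₀
  hk2 : k ≤ e / 100
  hκ : κ = k / 100
  hbig : (2 : ℝ) ^ (1000 / k) ≤ X
  hi1 : X ^ (1 / 2 - κ) ≤ (2 : ℝ) ^ i
  hi2 : (2 : ℝ) ^ i ≤ X ^ (1 / 2 + κ)
  hj1 : X ^ (1 / 2 - κ) ≤ (2 : ℝ) ^ j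
  hij : (2 : ℝ) ^ (i + j) ≤ X
  hl : (2 : ℝ) ^ i ≤ X ^ e * 2 ^ l

variable {κ₀ e k κ X : ℝ} {i j l : ℕ}

theorem Cp.hX0 (P : Cp κ₀ e k κ X i j l) : 0 < X := by linarith [P.hX]
theorem Cp.hX1 (P : Cp κ₀ e k κ X i j l) : 1 ≤ X := by linarith [P.hX]
theorem Cp.hX1' (P : Cp κ₀ e k κ X i j l) : 1 < X := by linarith [P.hX]

theorem Cp.two (P : Cp κ₀ e k κ X i j l) : 2 ≤ X ^ (k / 1000) := by
  have h1 : (2 : ℝ) = ((2 : ℝ) ^ (1000 / k)) ^ (k / 1000) := by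
    rw [← Real.rpow_mul (by norm_num)]
    have := P.hk
    have e : 1000 / k * (k / 1000) = 1 := by field_simp
    rw [e, Real.rpow_one]
  calc (2 : ℝ) = ((2 : ℝ) ^ (1000 / k)) ^ (k / 1000) := h1
    _ ≤ X ^ (k / 1000) := by
        apply Real.rpow_le_rpow (by positivity) P.hbig
        have := P.hk
        positivity

theorem Cp.klt (P : Cp κ₀ e k κ X i j l) : k ≤ 1 / 100 := by linarith [P.hk2, P.he1]

theorem Cp.L1 (P : Cp κ₀ e k κ X i j l) : 1 ≤ Real.log X := by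
  rw [Real.le_log_iff_exp_le P.hX0]
  exact (Real.exp_one_lt_d9.le.trans (by norm_num)).trans P.hX

/-- `A = 2^i - 1/2` -/
theorem Cp.A1 (P : Cp κ₀ e k κ X i j l) : X ^ (1 / 2 - κ) ≤ 2 * ((2 : ℝ) ^ i - 1 / 2) := by
  have h1 : (1 : ℝ) ≤ 2 ^ i := one_le_pow₀ (by norm_num)
  linarith [P.hi1]

theorem Cp.A2 (P : Cp κ₀ e k κ X i j l) :
    2 * ((2 : ℝ) ^ i - 1 / 2) ≤ X ^ (1 / 2 + κ + k / 1000) := by
  have h1 := P.two
  rw [Real.rpow_add P.hX0]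
  have h2 := P.hi2
  have h3 : 0 < X ^ (1 / 2 + κ) := Real.rpow_pos_of_pos P.hX0 _
  nlinarith

theorem Cp.B1 (P : Cp κ₀ e k κ X i j l) :
    X ^ (1 / 2 - κ - k / 1000) ≤ (2 : ℝ) ^ j - 1 / 2 := by
  have h1 := P.two
  have h2 := P.hj1
  have h4 : (1 : ℝ) ≤ 2 ^ j := one_le_pow₀ (by norm_num)
  rw [Real.rpow_sub P.hX0, div_le_iff₀ (Real.rpow_pos_of_pos P.hX0 _)]
  nlinarith

theorem Cp.Age (P : Cp κ₀ e k κ X i j l) : X ^ (1 / 3 : ℝ) ≤ (2 : ℝ) ^ i - 1 / 2 := by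
  have h1 := P.A1
  have h2 := P.two
  have h3 : 2 * X ^ (1 / 3 : ℝ) ≤ X ^ (1 / 2 - κ) := by
    calc 2 * X ^ (1 / 3 : ℝ) ≤ X ^ (k / 1000) * X ^ (1 / 3 : ℝ) := by
          have := P.hX0
          gcongr
      _ = X ^ (k / 1000 + 1 / 3) := by rw [← Real.rpow_add P.hX0]
      _ ≤ X ^ (1 / 2 - κ) := by
          apply Real.rpow_le_rpow_of_exponent_le P.hX1
          linarith [P.klt, P.hκ]
  linarith

theorem Cp.A_one (P : Cp κ₀ e k κ X i j l) : 1 ≤ (2 : ℝ) ^ i - 1 / 2 :=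
  (Real.one_le_rpow P.hX1 (by norm_num)).trans P.Age

theorem Cp.A_le (P : Cp κ₀ e k κ X i j l) : 2 * ((2 : ℝ) ^ i - 1 / 2) ≤ X := by
  refine P.A2.trans ?_
  conv_rhs => rw [← Real.rpow_one X]
  apply Real.rpow_le_rpow_of_exponent_le P.hX1
  linarith [P.klt, P.hκ]

end Vale.Agent.P006.TIIC
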