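import Vale.Agent.P006.TIIC.NCfC1

/-!
P006, block TIIC (helper570): the non-cube quadratic form in the centre, for all `t`.
-/

namespace Vale.Agent.P006.TIIC

open scoped Classical
open Finset H611 DN

variable {κ₀ e k κ X : ℝ} {i j l : ℕ} {f : ℝ → O → ℂ} {η : ℝ}

theorem Cp.L9 (P : Cp κ₀ e k κ X i j l) : 9 ≤ Real.log X := by
  have h1 : Real.log ((2 : ℝ) ^ (1000 / k)) ≤ Real.log X :=
    Real.log_le_log (by positivity) P.hbig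
  rw [Real.log_rpow (by norm_num)] at h1
  have h2 : 100000 ≤ 1000 / k := by
    rw [le_div_iff₀ P.hk]; linarith [P.klt]
  have h3 := Real.log_two_gt_d9
  nlinarith

/-- the class of the coefficients -/
def Hcls (f : ℝ → O → ℂ) (η : ℝ) : Prop :=
  ∀ X : ℝ, 3 ≤ X → ∀ y₁ y₂ : ℝ, y₂ ≤ X → ClassG (cut (X ^ η) y₁ y₂ (f X)) X (4 * Real.log X)

theorem alc_supp {y₁ y₂ : ℝ} {a : O} (h : alc f η X y₁ y₂ i a ≠ 0) :
    (2 : ℝ) ^ i - 1 / 2 < (N a : ℝ) ∧ (N a : ℝ) ≤ 2 * ((2 : ℝ) ^ i - 1 / 2) := by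
  rw [alc] at h
  by_contra hc
  rw [if_neg hc] at h
  exact h rfl

theorem alc_class (hcls : Hcls f η) (hX : 3 ≤ X) (hA : 2 * ((2 : ℝ) ^ i - 1 / 2) ≤ X)
    (y₁ y₂ : ℝ) : ClassG (alc f η X y₁ y₂ i) X (16 * Real.log X) := by
  have h1 := (hcls X hX y₁ (min y₂ (2 * ((2 : ℝ) ^ i - 1 / 2))) ((min_le_right _ _).trans hA))
  have h2 := h1.interval ((2 : ℝ) ^ i - 1 / 2) (2 * ((2 : ℝ) ^ i - 1 / 2))
  have e : alc f η X y₁ y₂ i = fun a => if (2 : ℝ) ^ i - 1 / 2 < (N a : ℝ) ∧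
      (N a : ℝ) ≤ 2 * ((2 : ℝ) ^ i - 1 / 2) then
        cut (X ^ η) y₁ (min y₂ (2 * ((2 : ℝ) ^ i - 1 / 2))) (f X) a else 0 := by
    funext a
    rw [alc]
    by_cases hc : (2 : ℝ) ^ i - 1 / 2 < (N a : ℝ) ∧ (N a : ℝ) ≤ 2 * ((2 : ℝ) ^ i - 1 / 2)
    · rw [if_pos hc, if_pos hc, cut, cut]
      congr 1
      rw [le_min_iff]
      exact propext ⟨fun h => ⟨h.1, h.2.1, h.2.2.1, h.2.2.2.1, h.2.2.2.2, hc.2⟩,
        fun h => ⟨h.1, h.2.1, h.2.2.1, h.2.2.2.1, h.2.2.2.2.1⟩⟩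
    · rw [if_neg hc, if_neg hc]
  rw [e]
  convert h2 using 1
  ring

/-- the family sum of non-cube forms in terms of the scaled family -/
theorem sum_eq_gam (α : O → ℂ) (l : ℕ) {A G σ t : ℝ} (hG : 1 ≤ G) (S : Finset ℕ) (Y H : ℝ) :
    ∑ s ∈ S, NCQ (twc (blk α l s) A σ t) Y H =
      16 * G ^ 2 * ∑ s ∈ S, NCQ (gam α l A G σ t s) Y H := by
  rw [mul_sum]
  exact sum_congr rfl fun s _ => NCQ_gam α l hG s Y H

/-- the upper bound for `H` -/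
theorem Cp.H_le (P : Cp κ₀ e k κ X i j l) {H : ℝ}
    (hH : H ≤ (2 * ((2 : ℝ) ^ i - 1 / 2)) ^ (1 + k)) : H ≤ X := by
  have hY0 : 0 ≤ 2 * ((2 : ℝ) ^ i - 1 / 2) := by linarith [P.A_one]
  calc H ≤ (2 * ((2 : ℝ) ^ i - 1 / 2)) ^ (1 + k) := hH
    _ ≤ (X ^ (1 / 2 + κ + k / 1000)) ^ (1 + k) := by
        apply Real.rpow_le_rpow hY0 P.A2
        linarith [P.hk]
    _ = X ^ ((1 / 2 + κ + k / 1000) * (1 + k)) := by rw [← Real.rpow_mul P.hX0.le]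
    _ ≤ X ^ (1 : ℝ) := by
        apply Real.rpow_le_rpow_of_exponent_le P.hX1
        have h1 := P.klt
        have h2 := P.hκ
        have h3 := P.hk
        nlinarith
    _ = X := Real.rpow_one X

theorem Cp.H_le' (P : Cp κ₀ e k κ X i j l) {H : ℝ}
    (hH : H ≤ (2 * ((2 : ℝ) ^ i - 1 / 2)) ^ (1 + k)) :
    H ≤ (2 * ((2 : ℝ) ^ i - 1 / 2)) ^ (1 + κ₀) := by
  refine hH.trans ?_
  apply Real.rpow_le_rpow_of_exponent_le
  · linarith [P.A_one]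
  · linarith [P.hk1]

theorem Cp.c1 (P : Cp κ₀ e k κ X i j l) : X ^ (1 / 2 - κ₀) ≤ (2 : ℝ) ^ i := by
  refine le_trans ?_ P.hi1
  apply Real.rpow_le_rpow_of_exponent_le P.hX1
  linarith [P.hκ, P.hk1, P.hk]

theorem Cp.c2 (P : Cp κ₀ e k κ X i j l) : (2 : ℝ) ^ i ≤ X ^ (1 / 2 + κ₀) := by
  refine P.hi2.trans ?_
  apply Real.rpow_le_rpow_of_exponent_le P.hX1
  linarith [P.hκ, P.hk1, P.hk]

theorem Cp.logY (P : Cp κ₀ e k κ X i j l) :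
    (1 + Real.log (2 * ((2 : ℝ) ^ i - 1 / 2))) ^ 3 ≤ 8 * Real.log X ^ 3 := by
  have h1 : Real.log (2 * ((2 : ℝ) ^ i - 1 / 2)) ≤ Real.log X :=
    Real.log_le_log (by linarith [P.A_one]) P.A_le
  have h2 : 0 ≤ Real.log (2 * ((2 : ℝ) ^ i - 1 / 2)) := Real.log_nonneg (by linarith [P.A_one])
  have h3 := P.L1
  calc (1 + Real.log (2 * ((2 : ℝ) ^ i - 1 / 2))) ^ 3 ≤ (2 * Real.log X) ^ 3 := by
        apply pow_le_pow_left₀ (by linarith)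
        linarith
    _ = _ := by ring

/-- first range: `|t| ≤ (log X)^c` -/
theorem reg1 (hNC : NCcen f η κ₀ e) (hcls : Hcls f η) (he : 0 < e) (A' c : ℕ) :
    ∃ C : ℝ, 0 ≤ C ∧ ∀ (k κ X : ℝ) (i j l : ℕ), Cp κ₀ e k κ X i j l →
      ∀ y₁ y₂ σ t : ℝ, (σ = -(1 / 3) ∨ σ = 3 / 2) → |t| ≤ Real.log X ^ c →
      ∀ (S : Finset ℕ) (H : ℝ), 1 ≤ H → H ≤ (2 * ((2 : ℝ) ^ i - 1 / 2)) ^ (1 + k) →
      ∑ s ∈ S, NCQ (twc (blk (alc f η X y₁ y₂ i) l s) ((2 : ℝ) ^ i - 1 / 2) σ t)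
        (2 * ((2 : ℝ) ^ i - 1 / 2)) H ≤
      C * (2 * ((2 : ℝ) ^ i - 1 / 2)) ^ 2 / Real.log X ^ A' * H ^ (1 / 3 : ℝ) := by
  obtain ⟨C, hC, h⟩ := hNC
  set q : ℕ := A' + 5 with hq
  set m : ℕ := 9 * q + A' + 2 with hm
  obtain ⟨c0, hc0, hSW⟩ := swhyp_log (9 * q + 4 * m + (A' + 2)) (c + 6 * q + 1 + 2 * m)
  set K : ℝ := (((6 * c + (A' + 2) : ℕ) + 1) / (e / 3)) ^ (6 * c + (A' + 2)) with hK
  have hK0 : 0 ≤ K := by positivity
  refine ⟨16 * 256 * C * (c0 + 1 + 8 + 64 * K), by positivity, ?_⟩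
  intro k κ X i j l P y₁ y₂ σ t hσ ht S H hH1 hH2
  have hX0 := P.hX0
  have hX1 := P.hX1
  have hL1 := P.L1
  have hL9 := P.L9
  set L := Real.log X with hL
  set A : ℝ := (2 : ℝ) ^ i - 1 / 2 with hA
  have hA1 : 1 ≤ A := P.A_one
  have hY1 : 1 ≤ 2 * A := by linarith
  set α := alc f η X y₁ y₂ i with hα
  have hcl : ClassG α X (16 * L) := alc_class hcls P.hX P.A_le y₁ y₂
  have hG : 1 ≤ 16 * L := by linarith
  have hσ' : σ ≤ 3 / 2 := by rcases hσ with rfl | rfl <;> norm_num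
  set b : ℝ := L ^ q with hb
  set cc : ℝ := L ^ m with hcc
  set a : ℝ := L ^ (A' + 2) with ha
  have hb1 : 1 ≤ b := one_le_pow₀ hL1
  have hc1 : 1 ≤ cc := one_le_pow₀ hL1
  have ha1 : 1 ≤ a := one_le_pow₀ hL1
  have hcb : cc = b ^ 9 * a := by
    rw [hcc, hb, ha, hm, ← pow_mul, ← pow_add]
    congr 1; ring
  have hba : b = a * L ^ 3 := by
    rw [hb, ha, hq, ← pow_add]
  have hsw := hSW X A (16 * L) t σ P.hX P.Age (by linarith [P.A_le]) hG hσ'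
    (ht.trans (pow_le_pow_right₀ hL1 (by omega))) α hcl (fun a ha => alc_supp ha) l S H (b ^ 3)
    (cc ^ 2) (P.H_le hH2) (by positivity) (by
      rw [hcc, ← pow_mul]
      exact pow_le_pow_right₀ hL1 (by omega)) (by
      have e1 : (b ^ 3) ^ 2 = L ^ (6 * q) := by rw [hb]; ring
      rw [e1]
      calc 9 * L ^ (6 * q) ≤ L * L ^ (6 * q) := by gcongr
        _ = L ^ (6 * q + 1) := by ring
        _ ≤ _ := pow_le_pow_right₀ hL1 (by omega))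
  have h1 := h X P.hX i l P.c1 P.c2 P.hl y₁ y₂ σ t hσ S H (b ^ 3) (cc ^ 2)
    (c0 / L ^ (9 * q + 4 * m + (A' + 2))) hH1 (P.H_le' hH2) (one_le_pow₀ hb1) (one_le_pow₀ hc1)
    (by positivity) hsw
  rw [sum_eq_gam α l hG]
  have hbr : (b ^ 3) ^ 3 * ((cc ^ 2) ^ 2 * (c0 / L ^ (9 * q + 4 * m + (A' + 2))) +
      (cc ^ 2) ^ (-(1 / 2 : ℝ))) + (1 + Real.log (2 * A)) ^ 3 * (b ^ 3) ^ (-(1 / 3 : ℝ)) +
      (1 + |t|) ^ 6 * (2 * A) ^ (-e) ≤ (c0 + 1 + 8 + 64 * K) / a := by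
    have e1 : L ^ (9 * q + 4 * m + (A' + 2)) = b ^ 9 * cc ^ 4 * a := by
      rw [hb, hcc, ha]; ring
    have e2 : (cc ^ 2) ^ (-(1 / 2 : ℝ)) = cc⁻¹ := by
      rw [← Real.rpow_natCast cc 2, ← Real.rpow_mul (by linarith)]
      norm_num
      rw [Real.rpow_neg_one]
    have e3 : (b ^ 3) ^ (-(1 / 3 : ℝ)) = b⁻¹ := by
      rw [← Real.rpow_natCast b 3, ← Real.rpow_mul (by linarith)]
      norm_num
      rw [Real.rpow_neg_one]
    rw [e1, e2, e3]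
    have hb0 : 0 < b := by linarith
    have hcc0 : 0 < cc := by linarith
    have ha0 : 0 < a := by linarith
    have t1 : (b ^ 3) ^ 3 * ((cc ^ 2) ^ 2 * (c0 / (b ^ 9 * cc ^ 4 * a)) + cc⁻¹) =
        c0 / a + 1 / a := by
      have : cc⁻¹ = (b ^ 9 * a)⁻¹ := by rw [hcb]
      rw [this]
      field_simp
    have t2 : (1 + Real.log (2 * A)) ^ 3 * b⁻¹ ≤ 8 / a := by
      have h2 := P.logY
      rw [← hA, ← hL] at h2
      have hL3 : 0 < L ^ 3 := by positivity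
      calc (1 + Real.log (2 * A)) ^ 3 * b⁻¹ ≤ 8 * L ^ 3 * b⁻¹ := by gcongr
        _ = 8 / a := by rw [hba]; field_simp
    have t3 : (1 + |t|) ^ 6 * (2 * A) ^ (-e) ≤ 64 * K / a := by
      have h3 : L ^ (6 * c + (A' + 2)) ≤ K * X ^ (e / 3) := log_pow_le (by positivity) _ hX1
      have h4 : (2 * A) ^ (-e) ≤ X ^ (-(e / 3)) := by
        have h5 : X ^ (1 / 3 : ℝ) ≤ 2 * A := by
          have := P.Age
          rw [← hA] at this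
          linarith
        calc (2 * A) ^ (-e) ≤ (X ^ (1 / 3 : ℝ)) ^ (-e) :=
              Real.rpow_le_rpow_of_nonpos (by positivity) h5 (by linarith)
          _ = X ^ (-(e / 3)) := by
              rw [← Real.rpow_mul hX0.le]; congr 1; ring
      have h5 : (1 + |t|) ^ 6 ≤ 64 * L ^ (6 * c) := by
        have h6 : 1 ≤ L ^ c := one_le_pow₀ hL1
        calc (1 + |t|) ^ 6 ≤ (2 * L ^ c) ^ 6 := by
              apply pow_le_pow_left₀ (by positivity)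
              linarith
          _ = 64 * L ^ (6 * c) := by ring
      rw [le_div_iff₀ ha0]
      calc (1 + |t|) ^ 6 * (2 * A) ^ (-e) * a
          ≤ (64 * L ^ (6 * c)) * X ^ (-(e / 3)) * a := by gcongr
        _ = 64 * L ^ (6 * c + (A' + 2)) * X ^ (-(e / 3)) := by rw [ha, pow_add]; ring
        _ ≤ 64 * (K * X ^ (e / 3)) * X ^ (-(e / 3)) := by gcongr
        _ = 64 * K * (X ^ (e / 3) * X ^ (-(e / 3))) := by ring
        _ = 64 * K := by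
            rw [← Real.rpow_add hX0, add_neg_cancel, Real.rpow_zero, mul_one]
    rw [t1]
    calc c0 / a + 1 / a + (1 + Real.log (2 * A)) ^ 3 * b⁻¹ + (1 + |t|) ^ 6 * (2 * A) ^ (-e)
        ≤ c0 / a + 1 / a + 8 / a + 64 * K / a := by linarith
      _ = _ := by ring
  have hHp : 0 ≤ H ^ (1 / 3 : ℝ) := by positivity
  calc 16 * (16 * L) ^ 2 * ∑ s ∈ S, NCQ (gam α l A (16 * L) σ t s) (2 * A) H
      ≤ 16 * (16 * L) ^ 2 * (C * (2 * A) ^ 2 * H ^ (1 / 3 : ℝ) *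
          ((c0 + 1 + 8 + 64 * K) / a)) := by
        gcongr
        exact h1.trans (by gcongr)
    _ = 16 * 256 * C * (c0 + 1 + 8 + 64 * K) * (2 * A) ^ 2 * (L ^ 2 / a) * H ^ (1 / 3 : ℝ) := by
        ring
    _ = _ := by
        have : L ^ 2 / a = 1 / L ^ A' := by
          rw [ha, pow_add, div_eq_div_iff (by positivity) (by positivity)]
          ring
        rw [this]; ring

/-- second range: `|t| ≤ Y^{e/12}`, trivial Siegel–Walfisz input -/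
theorem reg2 (hNC : NCcen f η κ₀ e) (hcls : Hcls f η) (he : 0 < e) :
    ∃ C : ℝ, 0 ≤ C ∧ ∀ (k κ X : ℝ) (i j l : ℕ), Cp κ₀ e k κ X i j l →
      ∀ y₁ y₂ σ t : ℝ, (σ = -(1 / 3) ∨ σ = 3 / 2) →
      |t| ≤ (2 * ((2 : ℝ) ^ i - 1 / 2)) ^ (e / 12) →
      ∀ (S : Finset ℕ) (H : ℝ), 1 ≤ H → H ≤ (2 * ((2 : ℝ) ^ i - 1 / 2)) ^ (1 + k) →
      ∑ s ∈ S, NCQ (twc (blk (alc f η X y₁ y₂ i) l s) ((2 : ℝ) ^ i - 1 / 2) σ t)
        (2 * ((2 : ℝ) ^ i - 1 / 2)) H ≤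
      C * (2 * ((2 : ℝ) ^ i - 1 / 2)) ^ 2 * Real.log X ^ 5 * H ^ (1 / 3 : ℝ) := by
  obtain ⟨C, hC, h⟩ := hNC
  refine ⟨16 * 256 * C * 77, by positivity, ?_⟩
  intro k κ X i j l P y₁ y₂ σ t hσ ht S H hH1 hH2
  have hX0 := P.hX0
  have hX1 := P.hX1
  have hL1 := P.L1
  set L := Real.log X with hL
  set A : ℝ := (2 : ℝ) ^ i - 1 / 2 with hA
  have hA1 : 1 ≤ A := P.A_one
  have hY1 : 1 ≤ 2 * A := by linarith
  set α := alc f η X y₁ y₂ i with hα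
  have hcl : ClassG α X (16 * L) := alc_class hcls P.hX P.A_le y₁ y₂
  have hG : 1 ≤ 16 * L := by linarith
  have hσ' : σ ≤ 3 / 2 := by rcases hσ with rfl | rfl <;> norm_num
  have hsw := swhyp_triv (t := t) hA1 hG hσ' hcl.bound
    (fun a ha => ⟨(hcl.supp a ha).1, alc_supp ha⟩) l S H 1 1
  have h1 := h X P.hX i l P.c1 P.c2 P.hl y₁ y₂ σ t hσ S H 1 1 4 hH1 (P.H_le' hH2) le_rfl le_rfl
    (by norm_num) hsw
  rw [sum_eq_gam α l hG]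
  have hbr : (1 : ℝ) ^ 3 * (1 ^ 2 * 4 + 1 ^ (-(1 / 2 : ℝ))) +
      (1 + Real.log (2 * A)) ^ 3 * 1 ^ (-(1 / 3 : ℝ)) + (1 + |t|) ^ 6 * (2 * A) ^ (-e) ≤
      77 * L ^ 3 := by
    have h2 := P.logY
    rw [← hA, ← hL] at h2
    have h3 : (1 + |t|) ^ 6 * (2 * A) ^ (-e) ≤ 64 := by
      have h4 : 1 ≤ (2 * A) ^ (e / 12) := Real.one_le_rpow hY1 (by positivity)
      have h5 : (1 + |t|) ^ 6 ≤ 64 * (2 * A) ^ (e / 2) := by
        calc (1 + |t|) ^ 6 ≤ (2 * (2 * A) ^ (e / 12)) ^ 6 := by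
              apply pow_le_pow_left₀ (by positivity)
              linarith
          _ = 64 * ((2 * A) ^ (e / 12)) ^ 6 := by ring
          _ = 64 * (2 * A) ^ (e / 2) := by
              rw [← Real.rpow_natCast, ← Real.rpow_mul (by linarith)]
              congr 2; push_cast; ring
      calc (1 + |t|) ^ 6 * (2 * A) ^ (-e) ≤ 64 * (2 * A) ^ (e / 2) * (2 * A) ^ (-e) := by gcongr
        _ = 64 * (2 * A) ^ (-(e / 2)) := by
            rw [mul_assoc, ← Real.rpow_add (by linarith)]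
            congr 2; ring
        _ ≤ 64 * 1 := by
            gcongr
            exact Real.rpow_le_one_of_one_le_of_nonpos hY1 (by linarith)
        _ = 64 := by norm_num
    have h6 : 1 ≤ L ^ 3 := one_le_pow₀ hL1
    rw [Real.one_rpow, Real.one_rpow]
    linarith
  calc 16 * (16 * L) ^ 2 * ∑ s ∈ S, NCQ (gam α l A (16 * L) σ t s) (2 * A) H
      ≤ 16 * (16 * L) ^ 2 * (C * (2 * A) ^ 2 * H ^ (1 / 3 : ℝ) * (77 * L ^ 3)) := by
        gcongr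
        exact h1.trans (by gcongr)
    _ = _ := by ring

/-- third range: all `t`, full cubic large sieve -/
theorem reg3 (hcls : Hcls f η) {ε : ℝ} (hε : 0 < ε) :
    ∃ C : ℝ, 0 ≤ C ∧ ∀ (κ₀ e k κ X : ℝ) (i j l : ℕ), Cp κ₀ e k κ X i j l →
      ∀ y₁ y₂ σ t : ℝ, (σ = -(1 / 3) ∨ σ = 3 / 2) →
      ∀ (S : Finset ℕ) (H : ℝ), 1 ≤ H →
      ∑ s ∈ S, NCQ (twc (blk (alc f η X y₁ y₂ i) l s) ((2 : ℝ) ^ i - 1 / 2) σ t)
        (2 * ((2 : ℝ) ^ i - 1 / 2)) H ≤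
      C * Real.log X ^ 2 * (2 * ((2 : ℝ) ^ i - 1 / 2) * H) ^ ε *
        (2 * ((2 : ℝ) ^ i - 1 / 2) * H + (2 * ((2 : ℝ) ^ i - 1 / 2)) ^ 2 * H ^ (1 / 3 : ℝ) +
          (2 * ((2 : ℝ) ^ i - 1 / 2)) ^ (5 / 3 : ℝ) * H ^ (2 / 3 : ℝ)) := by
  obtain ⟨C, hC, h⟩ := fam_tail hε
  refine ⟨256 * C, by positivity, ?_⟩
  intro κ₀ e k κ X i j l P y₁ y₂ σ t hσ S H hH1
  have hσ' : σ ≤ 3 / 2 := by rcases hσ with rfl | rfl <;> norm_num
  have hL1 := P.L1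
  have hcl : ClassG (alc f η X y₁ y₂ i) X (16 * Real.log X) := alc_class hcls P.hX P.A_le y₁ y₂
  have h1 := h X ((2 : ℝ) ^ i - 1 / 2) (16 * Real.log X) σ t (alc f η X y₁ y₂ i) P.A_one
    (by linarith) hσ' hcl (fun a ha => alc_supp ha) l S H hH1
  refine h1.trans (le_of_eq ?_)
  ring

end Vale.Agent.P006.TIIC
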