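import Vale.Agent.P006.TIIC.NCfC2

/-!
P006, block TIIC (helper570): the non-cube functional summed over the blocks, in the centre.
-/

namespace Vale.Agent.P006.TIIC

open scoped Classical
open Finset H611 DN DISP

variable {κ₀ e k κ X : ℝ} {i j l : ℕ} {f : ℝ → O → ℂ} {η : ℝ}

theorem le_growth {T t : ℝ} (hT : 0 ≤ T) (h : T ^ 2 ≤ |t|) : T ≤ (1 + t ^ 2) ^ (1 / 4 : ℝ) := by
  have h1 : T ^ 4 ≤ 1 + t ^ 2 := by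
    have h2 : (T ^ 2) ^ 2 ≤ |t| ^ 2 := pow_le_pow_left₀ (by positivity) h 2
    rw [sq_abs] at h2
    nlinarith
  calc T = (T ^ 4) ^ (1 / 4 : ℝ) := by
        rw [← Real.rpow_natCast T 4, ← Real.rpow_mul hT]
        norm_num
    _ ≤ (1 + t ^ 2) ^ (1 / 4 : ℝ) := Real.rpow_le_rpow (by positivity) h1 (by norm_num)

theorem mul_one_add {Y k : ℝ} (hY : 0 < Y) : Y * Y ^ (1 + k) = Y ^ (1 + (1 + k)) := by
  rw [Real.rpow_add hY 1 (1 + k), Real.rpow_one]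

/-- the three terms of the full sieve for `H ≤ Y^{1+k}` -/
theorem three_le {Y H k : ℝ} (hY : 1 ≤ Y) (hk : 0 < k) (hk1 : k ≤ 1 / 100) (hH : 1 ≤ H)
    (hH2 : H ≤ Y ^ (1 + k)) :
    (Y * H) ^ (k / 9) * (Y * H + Y ^ 2 * H ^ (1 / 3 : ℝ) + Y ^ (5 / 3 : ℝ) * H ^ (2 / 3 : ℝ)) ≤
      3 * Y ^ (2 * k / 3) * Y ^ 2 * H ^ (1 / 3 : ℝ) := by
  have hY0 : 0 < Y := by linarith
  have hH0 : 0 < H := by linarith
  have h1 : (Y * H) ^ (k / 9) ≤ Y ^ (k / 3) := by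
    have : Y * H ≤ Y ^ (3 : ℝ) := by
      calc Y * H ≤ Y * Y ^ (1 + k) := by gcongr
        _ = Y ^ (1 + (1 + k)) := mul_one_add hY0
        _ ≤ Y ^ (3 : ℝ) := Real.rpow_le_rpow_of_exponent_le hY (by linarith)
    calc (Y * H) ^ (k / 9) ≤ (Y ^ (3 : ℝ)) ^ (k / 9) := by gcongr
      _ = Y ^ (k / 3) := by rw [← Real.rpow_mul hY0.le]; congr 1; ring
  have hP : 0 ≤ H ^ (1 / 3 : ℝ) := by positivity
  have h2 : Y * H ≤ Y ^ (k / 3) * Y ^ 2 * H ^ (1 / 3 : ℝ) := by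
    have e1 : H = H ^ (2 / 3 : ℝ) * H ^ (1 / 3 : ℝ) := by
      rw [← Real.rpow_add hH0]; norm_num
    have e2 : H ^ (2 / 3 : ℝ) ≤ Y := by
      calc H ^ (2 / 3 : ℝ) ≤ (Y ^ (1 + k)) ^ (2 / 3 : ℝ) := by gcongr
        _ = Y ^ ((1 + k) * (2 / 3)) := by rw [← Real.rpow_mul hY0.le]
        _ ≤ Y ^ (1 : ℝ) := Real.rpow_le_rpow_of_exponent_le hY (by linarith)
        _ = Y := Real.rpow_one Y
    have e3 : 1 ≤ Y ^ (k / 3) := Real.one_le_rpow hY (by positivity)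
    calc Y * H = Y * (H ^ (2 / 3 : ℝ) * H ^ (1 / 3 : ℝ)) := by rw [← e1]
      _ ≤ Y * (Y * H ^ (1 / 3 : ℝ)) := by gcongr
      _ = 1 * Y ^ 2 * H ^ (1 / 3 : ℝ) := by ring
      _ ≤ Y ^ (k / 3) * Y ^ 2 * H ^ (1 / 3 : ℝ) := by gcongr
  have h3 : Y ^ 2 * H ^ (1 / 3 : ℝ) ≤ Y ^ (k / 3) * Y ^ 2 * H ^ (1 / 3 : ℝ) := by
    have e3 : 1 ≤ Y ^ (k / 3) := Real.one_le_rpow hY (by positivity)
    calc Y ^ 2 * H ^ (1 / 3 : ℝ) = 1 * Y ^ 2 * H ^ (1 / 3 : ℝ) := by ring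
      _ ≤ _ := by gcongr
  have h4 : Y ^ (5 / 3 : ℝ) * H ^ (2 / 3 : ℝ) ≤ Y ^ (k / 3) * Y ^ 2 * H ^ (1 / 3 : ℝ) := by
    have e1 : H ^ (2 / 3 : ℝ) = H ^ (1 / 3 : ℝ) * H ^ (1 / 3 : ℝ) := by
      rw [← Real.rpow_add hH0]; norm_num
    have e2 : H ^ (1 / 3 : ℝ) ≤ Y ^ ((1 + k) * (1 / 3)) := by
      calc H ^ (1 / 3 : ℝ) ≤ (Y ^ (1 + k)) ^ (1 / 3 : ℝ) := by gcongr
        _ = _ := by rw [← Real.rpow_mul hY0.le]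
    calc Y ^ (5 / 3 : ℝ) * H ^ (2 / 3 : ℝ)
        = Y ^ (5 / 3 : ℝ) * H ^ (1 / 3 : ℝ) * H ^ (1 / 3 : ℝ) := by rw [e1]; ring
      _ ≤ Y ^ (5 / 3 : ℝ) * Y ^ ((1 + k) * (1 / 3)) * H ^ (1 / 3 : ℝ) := by gcongr
      _ = Y ^ (k / 3) * Y ^ 2 * H ^ (1 / 3 : ℝ) := by
          rw [← Real.rpow_add hY0, ← Real.rpow_natCast Y 2, ← Real.rpow_add hY0]
          congr 2
          push_cast; ring
  calc _ ≤ Y ^ (k / 3) * (Y ^ (k / 3) * Y ^ 2 * H ^ (1 / 3 : ℝ) +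
        Y ^ (k / 3) * Y ^ 2 * H ^ (1 / 3 : ℝ) + Y ^ (k / 3) * Y ^ 2 * H ^ (1 / 3 : ℝ)) := by
        gcongr
    _ = 3 * (Y ^ (k / 3) * Y ^ (k / 3)) * Y ^ 2 * H ^ (1 / 3 : ℝ) := by ring
    _ = _ := by
        rw [← Real.rpow_add hY0]
        congr 3
        ring_nf

/-- all `t`, `H ≤ Y^{1+k}` -/
theorem all_t (hNC : NCcen f η κ₀ e) (hcls : Hcls f η) (he : 0 < e) (hk : 0 < k) (A' : ℕ) :
    ∃ C : ℝ, 0 ≤ C ∧ ∀ (κ X : ℝ) (i j l : ℕ), Cp κ₀ e k κ X i j l →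
      ∀ y₁ y₂ σ t : ℝ, (σ = -(1 / 3) ∨ σ = 3 / 2) →
      ∀ (S : Finset ℕ) (H : ℝ), 1 ≤ H → H ≤ (2 * ((2 : ℝ) ^ i - 1 / 2)) ^ (1 + k) →
      ∑ s ∈ S, NCQ (twc (blk (alc f η X y₁ y₂ i) l s) ((2 : ℝ) ^ i - 1 / 2) σ t)
        (2 * ((2 : ℝ) ^ i - 1 / 2)) H ≤
      (C * (2 * ((2 : ℝ) ^ i - 1 / 2)) ^ 2 / Real.log X ^ A' +
        C * (2 * ((2 : ℝ) ^ i - 1 / 2)) ^ 2 / Real.log X ^ A' * (1 + t ^ 2) ^ (1 / 4 : ℝ)) *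
          H ^ (1 / 3 : ℝ) := by
  obtain ⟨C₁, hC₁, h1⟩ := reg1 hNC hcls he A' (2 * (A' + 5))
  obtain ⟨C₂, hC₂, h2⟩ := reg2 hNC hcls he
  obtain ⟨C₃, hC₃, h3⟩ := reg3 (f := f) (η := η) hcls (ε := k / 9) (by positivity)
  set K : ℝ := (((A' + 2 : ℕ) + 1) / (e / 180)) ^ (A' + 2) with hK
  have hK0 : 0 ≤ K := by positivity
  refine ⟨C₁ + C₂ + 3 * C₃ * K, by positivity, ?_⟩
  intro κ X i j l P y₁ y₂ σ t hσ S H hH1 hH2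
  have hX0 := P.hX0
  have hX1 := P.hX1
  have hL1 := P.L1
  set L := Real.log X with hL
  set Y : ℝ := 2 * ((2 : ℝ) ^ i - 1 / 2) with hY
  have hA1 : 1 ≤ (2 : ℝ) ^ i - 1 / 2 := P.A_one
  have hY1 : 1 ≤ Y := by linarith
  have hY0 : 0 < Y := by linarith
  have hLA : 0 < L ^ A' := by positivity
  have hg : 1 ≤ (1 + t ^ 2) ^ (1 / 4 : ℝ) := Real.one_le_rpow (by nlinarith) (by norm_num)
  have hHp : 0 ≤ H ^ (1 / 3 : ℝ) := by positivity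
  have hfin : ∀ C' : ℝ, 0 ≤ C' → C' ≤ C₁ + C₂ + 3 * C₃ * K →
      ∀ U : ℝ, U ≤ C' * Y ^ 2 / L ^ A' * (1 + t ^ 2) ^ (1 / 4 : ℝ) * H ^ (1 / 3 : ℝ) →
      U ≤ ((C₁ + C₂ + 3 * C₃ * K) * Y ^ 2 / L ^ A' +
        (C₁ + C₂ + 3 * C₃ * K) * Y ^ 2 / L ^ A' * (1 + t ^ 2) ^ (1 / 4 : ℝ)) *
          H ^ (1 / 3 : ℝ) := by
    intro C' hC' hle U hU
    refine hU.trans ?_
    refine mul_le_mul_of_nonneg_right ?_ hHp
    have e1 : C' * Y ^ 2 / L ^ A' * (1 + t ^ 2) ^ (1 / 4 : ℝ) ≤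
        (C₁ + C₂ + 3 * C₃ * K) * Y ^ 2 / L ^ A' * (1 + t ^ 2) ^ (1 / 4 : ℝ) := by gcongr
    have e2 : 0 ≤ (C₁ + C₂ + 3 * C₃ * K) * Y ^ 2 / L ^ A' := by positivity
    linarith
  have hp3 : 0 ≤ 3 * C₃ * K := by positivity
  rcases le_or_gt |t| (L ^ (2 * (A' + 5))) with ht | ht
  · refine hfin C₁ hC₁ (by linarith) _ ?_
    refine (h1 k κ X i j l P y₁ y₂ σ t hσ ht S H hH1 hH2).trans ?_
    refine mul_le_mul_of_nonneg_right ?_ hHp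
    exact le_mul_of_one_le_right (by positivity) hg
  rcases le_or_gt |t| (Y ^ (e / 12)) with ht2 | ht2
  · refine hfin C₂ hC₂ (by linarith) _ ?_
    refine (h2 k κ X i j l P y₁ y₂ σ t hσ ht2 S H hH1 hH2).trans ?_
    refine mul_le_mul_of_nonneg_right ?_ hHp
    have h4 : L ^ (A' + 5) ≤ (1 + t ^ 2) ^ (1 / 4 : ℝ) := by
      apply le_growth (by positivity)
      rw [← pow_mul, mul_comm (A' + 5) 2]
      exact ht.le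
    have h5 : L ^ 5 ≤ (1 + t ^ 2) ^ (1 / 4 : ℝ) / L ^ A' := by
      rw [le_div_iff₀ hLA, ← pow_add, add_comm 5 A']
      exact h4
    calc C₂ * Y ^ 2 * L ^ 5 ≤ C₂ * Y ^ 2 * ((1 + t ^ 2) ^ (1 / 4 : ℝ) / L ^ A') := by gcongr
      _ = _ := by ring
  · refine hfin (3 * C₃ * K) hp3 (by linarith) _ ?_
    have h4 : Y ^ (e / 24) ≤ (1 + t ^ 2) ^ (1 / 4 : ℝ) := by
      apply le_growth (by positivity)
      rw [← Real.rpow_natCast, ← Real.rpow_mul hY0.le]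
      have : e / 24 * ((2 : ℕ) : ℝ) = e / 12 := by push_cast; ring
      rw [this]
      exact ht2.le
    have h5 := three_le hY1 hk P.klt hH1 hH2
    have h6 := h3 κ₀ e k κ X i j l P y₁ y₂ σ t hσ S H hH1
    rw [← hY] at h6
    have h7 : L ^ (A' + 2) ≤ K * Y ^ (e / 60) := by
      have h8 : L ^ (A' + 2) ≤ K * X ^ (e / 180) := log_pow_le (by positivity) _ hX1
      have h9 : X ^ (e / 180) ≤ Y ^ (e / 60) := by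
        have h10 : X ^ (1 / 3 : ℝ) ≤ Y := by
          have := P.Age
          linarith
        calc X ^ (e / 180) = (X ^ (1 / 3 : ℝ)) ^ (e / 60) := by
              rw [← Real.rpow_mul hX0.le]; congr 1; ring
          _ ≤ Y ^ (e / 60) := by
              apply Real.rpow_le_rpow (by positivity) h10 (by positivity)
      calc L ^ (A' + 2) ≤ K * X ^ (e / 180) := h8
        _ ≤ _ := by gcongr
    have h11 : L ^ 2 * Y ^ (2 * k / 3) ≤ K * ((1 + t ^ 2) ^ (1 / 4 : ℝ) / L ^ A') := by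
      rw [← mul_div_assoc, le_div_iff₀ hLA]
      calc L ^ 2 * Y ^ (2 * k / 3) * L ^ A' = L ^ (A' + 2) * Y ^ (2 * k / 3) := by
            rw [pow_add]; ring
        _ ≤ K * Y ^ (e / 60) * Y ^ (2 * k / 3) := by gcongr
        _ = K * Y ^ (e / 60 + 2 * k / 3) := by rw [mul_assoc, ← Real.rpow_add hY0]
        _ ≤ K * Y ^ (e / 24) := by
            refine mul_le_mul_of_nonneg_left ?_ hK0
            apply Real.rpow_le_rpow_of_exponent_le hY1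
            linarith [P.hk2]
        _ ≤ _ := by gcongr
    refine h6.trans ?_
    calc C₃ * L ^ 2 * (Y * H) ^ (k / 9) * (Y * H + Y ^ 2 * H ^ (1 / 3 : ℝ) +
          Y ^ (5 / 3 : ℝ) * H ^ (2 / 3 : ℝ))
        = C₃ * L ^ 2 * ((Y * H) ^ (k / 9) * (Y * H + Y ^ 2 * H ^ (1 / 3 : ℝ) +
          Y ^ (5 / 3 : ℝ) * H ^ (2 / 3 : ℝ))) := by ring
      _ ≤ C₃ * L ^ 2 * (3 * Y ^ (2 * k / 3) * Y ^ 2 * H ^ (1 / 3 : ℝ)) := by gcongr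
      _ = 3 * C₃ * (L ^ 2 * Y ^ (2 * k / 3)) * Y ^ 2 * H ^ (1 / 3 : ℝ) := by ring
      _ ≤ 3 * C₃ * (K * ((1 + t ^ 2) ^ (1 / 4 : ℝ) / L ^ A')) * Y ^ 2 * H ^ (1 / 3 : ℝ) := by
          gcongr
      _ = _ := by ring

/-- the tail `H ≥ Y^{1+k}` -/
theorem tail_t (hcls : Hcls f η) (hk : 0 < k) :
    ∃ C : ℝ, 0 ≤ C ∧ ∀ (κ₀ e κ X : ℝ) (i j l : ℕ), Cp κ₀ e k κ X i j l →
      ∀ y₁ y₂ σ t : ℝ, (σ = -(1 / 3) ∨ σ = 3 / 2) →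
      ∀ (S : Finset ℕ) (H : ℝ), 1 ≤ H → (2 * ((2 : ℝ) ^ i - 1 / 2)) ^ (1 + k) ≤ H →
      ∑ s ∈ S, NCQ (twc (blk (alc f η X y₁ y₂ i) l s) ((2 : ℝ) ^ i - 1 / 2) σ t)
        (2 * ((2 : ℝ) ^ i - 1 / 2)) H ≤
      (C * Real.log X ^ 2 * (2 * ((2 : ℝ) ^ i - 1 / 2)) ^ (7 / 3 + k)) *
        (H / (2 * ((2 : ℝ) ^ i - 1 / 2)) ^ (1 + k)) ^ (3 / 2 : ℝ) := by
  obtain ⟨C₃, hC₃, h3⟩ := reg3 (f := f) (η := η) hcls (ε := k / 9) (by positivity)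
  refine ⟨3 * C₃, by positivity, ?_⟩
  intro κ₀ e κ X i j l P y₁ y₂ σ t hσ S H hH1 hH2
  have hL1 := P.L1
  have hk1 := P.klt
  set L := Real.log X with hL
  set Y : ℝ := 2 * ((2 : ℝ) ^ i - 1 / 2) with hY
  have hA1 : 1 ≤ (2 : ℝ) ^ i - 1 / 2 := P.A_one
  have hY1 : 1 ≤ Y := by linarith
  have hY0 : 0 < Y := by linarith
  set H0 : ℝ := Y ^ (1 + k) with hH0
  have hH00 : 0 < H0 := by positivity
  set ρ : ℝ := H / H0 with hρ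
  have hρ1 : 1 ≤ ρ := by rw [hρ, le_div_iff₀ hH00, one_mul]; exact hH2
  have hρ0 : 0 < ρ := by linarith
  have hHρ : H = ρ * H0 := by rw [hρ]; field_simp
  have h6 := h3 κ₀ e k κ X i j l P y₁ y₂ σ t hσ S H hH1
  rw [← hY] at h6
  refine h6.trans ?_
  have g1 : (Y * H) ^ (k / 9) ≤ ρ ^ (k / 9) * Y ^ (k / 3) := by
    have e1 : Y * H = ρ * (Y * H0) := by rw [hHρ]; ring
    rw [e1, Real.mul_rpow hρ0.le (by positivity)]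
    refine mul_le_mul_of_nonneg_left ?_ (by positivity)
    have : Y * H0 ≤ Y ^ (3 : ℝ) := by
      calc Y * H0 = Y ^ (1 + (1 + k)) := by rw [hH0, mul_one_add hY0]
        _ ≤ Y ^ (3 : ℝ) := Real.rpow_le_rpow_of_exponent_le hY1 (by linarith)
    calc (Y * H0) ^ (k / 9) ≤ (Y ^ (3 : ℝ)) ^ (k / 9) := by gcongr
      _ = Y ^ (k / 3) := by rw [← Real.rpow_mul hY0.le]; congr 1; ring
  have hYm : 0 ≤ Y ^ (7 / 3 + 2 * k / 3) := by positivity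
  have g2 : Y * H ≤ ρ * Y ^ (7 / 3 + 2 * k / 3) := by
    calc Y * H = ρ * (Y * H0) := by rw [hHρ]; ring
      _ = ρ * Y ^ (1 + (1 + k)) := by rw [hH0, mul_one_add hY0]
      _ ≤ ρ * Y ^ (7 / 3 + 2 * k / 3) :=
          mul_le_mul_of_nonneg_left (Real.rpow_le_rpow_of_exponent_le hY1 (by linarith)) hρ0.le
  have g3 : Y ^ 2 * H ^ (1 / 3 : ℝ) ≤ ρ * Y ^ (7 / 3 + 2 * k / 3) := by
    have e1 : ρ ^ (1 / 3 : ℝ) ≤ ρ := by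
      calc ρ ^ (1 / 3 : ℝ) ≤ ρ ^ (1 : ℝ) :=
            Real.rpow_le_rpow_of_exponent_le hρ1 (by norm_num)
        _ = ρ := Real.rpow_one ρ
    calc Y ^ 2 * H ^ (1 / 3 : ℝ) = ρ ^ (1 / 3 : ℝ) * (Y ^ 2 * H0 ^ (1 / 3 : ℝ)) := by
          rw [hHρ, Real.mul_rpow hρ0.le hH00.le]; ring
      _ = ρ ^ (1 / 3 : ℝ) * Y ^ (2 + (1 + k) * (1 / 3)) := by
          rw [hH0, ← Real.rpow_mul hY0.le, ← Real.rpow_natCast Y 2, ← Real.rpow_add hY0]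
          norm_num
      _ ≤ ρ * Y ^ (7 / 3 + 2 * k / 3) :=
          mul_le_mul e1 (Real.rpow_le_rpow_of_exponent_le hY1 (by linarith)) (by positivity) hρ0.le
  have g4 : Y ^ (5 / 3 : ℝ) * H ^ (2 / 3 : ℝ) ≤ ρ * Y ^ (7 / 3 + 2 * k / 3) := by
    have e1 : ρ ^ (2 / 3 : ℝ) ≤ ρ := by
      calc ρ ^ (2 / 3 : ℝ) ≤ ρ ^ (1 : ℝ) :=
            Real.rpow_le_rpow_of_exponent_le hρ1 (by norm_num)
        _ = ρ := Real.rpow_one ρ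
    calc Y ^ (5 / 3 : ℝ) * H ^ (2 / 3 : ℝ) =
          ρ ^ (2 / 3 : ℝ) * (Y ^ (5 / 3 : ℝ) * H0 ^ (2 / 3 : ℝ)) := by
          rw [hHρ, Real.mul_rpow hρ0.le hH00.le]; ring
      _ = ρ ^ (2 / 3 : ℝ) * Y ^ (5 / 3 + (1 + k) * (2 / 3)) := by
          rw [hH0, ← Real.rpow_mul hY0.le, ← Real.rpow_add hY0]
      _ ≤ ρ * Y ^ (7 / 3 + 2 * k / 3) :=
          mul_le_mul e1 (Real.rpow_le_rpow_of_exponent_le hY1 (by linarith)) (by positivity) hρ0.le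
  have g5 : ρ ^ (k / 9) * ρ ≤ ρ ^ (3 / 2 : ℝ) := by
    calc ρ ^ (k / 9) * ρ = ρ ^ (k / 9 + 1) := by rw [Real.rpow_add_one hρ0.ne']
      _ ≤ ρ ^ (3 / 2 : ℝ) := Real.rpow_le_rpow_of_exponent_le hρ1 (by linarith)
  calc C₃ * L ^ 2 * (Y * H) ^ (k / 9) * (Y * H + Y ^ 2 * H ^ (1 / 3 : ℝ) +
          Y ^ (5 / 3 : ℝ) * H ^ (2 / 3 : ℝ))
      ≤ C₃ * L ^ 2 * (ρ ^ (k / 9) * Y ^ (k / 3)) * (ρ * Y ^ (7 / 3 + 2 * k / 3) +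
          ρ * Y ^ (7 / 3 + 2 * k / 3) + ρ * Y ^ (7 / 3 + 2 * k / 3)) := by gcongr
    _ = 3 * C₃ * L ^ 2 * (Y ^ (7 / 3 + 2 * k / 3) * Y ^ (k / 3)) * (ρ ^ (k / 9) * ρ) := by ring
    _ = 3 * C₃ * L ^ 2 * Y ^ (7 / 3 + k) * (ρ ^ (k / 9) * ρ) := by
        rw [← Real.rpow_add hY0]
        congr 3
        ring
    _ ≤ 3 * C₃ * L ^ 2 * Y ^ (7 / 3 + k) * ρ ^ (3 / 2 : ℝ) := by gcongr

end Vale.Agent.P006.TIIC
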