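import Vale.Agent.P006.TIIC.NCfC3

/-!
P006, block TIIC (helper570): the non-cube functional summed over the blocks, in the centre.
-/

namespace Vale.Agent.P006.TIIC

open scoped Classical
open Finset H611 DN DISP

variable {κ₀ e k κ X : ℝ} {i j l : ℕ} {f : ℝ → O → ℂ} {η : ℝ}

theorem Cp.B_pos (P : Cp κ₀ e k κ X i j l) : 0 < (2 : ℝ) ^ j - 1 / 2 :=
  lt_of_lt_of_le (Real.rpow_pos_of_pos P.hX0 _) P.B1

/-- the condition on `H0` -/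
theorem Cp.hK (P : Cp κ₀ e k κ X i j l) :
    2 * (((2 : ℝ) ^ i - 1 / 2) ^ 2 / ((2 : ℝ) ^ j - 1 / 2)) ≤
      (2 * ((2 : ℝ) ^ i - 1 / 2)) ^ (1 + k) := by
  have hA1 := P.A_one
  have hB := P.B_pos
  set A : ℝ := (2 : ℝ) ^ i - 1 / 2 with hA
  set B : ℝ := (2 : ℝ) ^ j - 1 / 2 with hB'
  have hY0 : 0 < 2 * A := by linarith
  have h1 : (2 * A) ^ (1 - k) ≤ B := by
    have hA2 := P.A2
    have hB1 := P.B1
    rw [← hA] at hA2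
    rw [← hB'] at hB1
    calc (2 * A) ^ (1 - k) ≤ (X ^ (1 / 2 + κ + k / 1000)) ^ (1 - k) := by
          apply Real.rpow_le_rpow hY0.le hA2
          linarith [P.klt]
      _ = X ^ ((1 / 2 + κ + k / 1000) * (1 - k)) := by rw [← Real.rpow_mul P.hX0.le]
      _ ≤ X ^ (1 / 2 - κ - k / 1000) := by
          apply Real.rpow_le_rpow_of_exponent_le P.hX1
          have h1 := P.klt
          have h2 := P.hκ
          have h3 := P.hk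
          nlinarith
      _ ≤ B := hB1
  rw [← mul_div_assoc, div_le_iff₀ hB]
  have e1 : (2 * A) ^ (1 + k) * (2 * A) ^ (1 - k) = (2 * A) ^ 2 := by
    rw [← Real.rpow_add hY0, ← Real.rpow_natCast (2 * A) 2]
    congr 1; push_cast; ring
  calc 2 * A ^ 2 ≤ (2 * A) ^ 2 := by nlinarith
    _ = (2 * A) ^ (1 + k) * (2 * A) ^ (1 - k) := e1.symm
    _ ≤ (2 * A) ^ (1 + k) * B := by gcongr

/-- the tail term -/
theorem Cp.tail (P : Cp κ₀ e k κ X i j l) (A' : ℕ) :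
    Real.log X ^ (A' + 2) * (2 * ((2 : ℝ) ^ i - 1 / 2)) ^ (5 / 3 - k) ≤
      (((A' + 2 : ℕ) + 1) / (k / 4)) ^ (A' + 2) * ((2 : ℝ) ^ j - 1 / 2) ^ (5 / 3 : ℝ) := by
  have hk := P.hk
  have hA1 := P.A_one
  have hX0 := P.hX0
  have hX1 := P.hX1
  have hY0 : 0 < 2 * ((2 : ℝ) ^ i - 1 / 2) := by linarith
  have h1 : Real.log X ^ (A' + 2) ≤ (((A' + 2 : ℕ) + 1) / (k / 4)) ^ (A' + 2) * X ^ (k / 4) :=
    log_pow_le (by positivity) _ hX1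
  have h2 : (2 * ((2 : ℝ) ^ i - 1 / 2)) ^ (5 / 3 - k) ≤
      X ^ ((1 / 2 + κ + k / 1000) * (5 / 3 - k)) := by
    rw [Real.rpow_mul hX0.le]
    apply Real.rpow_le_rpow hY0.le P.A2
    linarith [P.klt]
  have h3 : X ^ ((1 / 2 - κ - k / 1000) * (5 / 3)) ≤ ((2 : ℝ) ^ j - 1 / 2) ^ (5 / 3 : ℝ) := by
    rw [Real.rpow_mul hX0.le]
    exact Real.rpow_le_rpow (Real.rpow_nonneg hX0.le _) P.B1 (by norm_num)
  have hL0 : 0 ≤ Real.log X := by linarith [P.L1]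
  calc Real.log X ^ (A' + 2) * (2 * ((2 : ℝ) ^ i - 1 / 2)) ^ (5 / 3 - k)
      ≤ ((((A' + 2 : ℕ) + 1) / (k / 4)) ^ (A' + 2) * X ^ (k / 4)) *
        X ^ ((1 / 2 + κ + k / 1000) * (5 / 3 - k)) := by
        apply mul_le_mul h1 h2 (by positivity)
        positivity
    _ = (((A' + 2 : ℕ) + 1) / (k / 4)) ^ (A' + 2) *
        X ^ (k / 4 + (1 / 2 + κ + k / 1000) * (5 / 3 - k)) := by
        rw [mul_assoc, ← Real.rpow_add hX0]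
    _ ≤ (((A' + 2 : ℕ) + 1) / (k / 4)) ^ (A' + 2) * X ^ ((1 / 2 - κ - k / 1000) * (5 / 3)) := by
        refine mul_le_mul_of_nonneg_left ?_ (by positivity)
        apply Real.rpow_le_rpow_of_exponent_le hX1
        have h1 := P.klt
        have h2 := P.hκ
        nlinarith
    _ ≤ _ := by gcongr

/-- **the non-cube functional in the centre** -/
theorem ncf_cen (hNC : NCcen f η κ₀ e) (hcls : Hcls f η) (he : 0 < e) (hk : 0 < k) (A' : ℕ) :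
    ∃ C : ℝ, 0 ≤ C ∧ ∀ (κ X : ℝ) (i j l : ℕ), Cp κ₀ e k κ X i j l →
      ∀ (y₁ y₂ : ℝ) (S : Finset ℕ),
      ∑ s ∈ S, NCf (blk (alc f η X y₁ y₂ i) l s) ((2 : ℝ) ^ i - 1 / 2) ((2 : ℝ) ^ j - 1 / 2) ≤
      C * ((2 : ℝ) ^ i - 1 / 2) ^ (5 / 3 : ℝ) * ((2 : ℝ) ^ j - 1 / 2) ^ (2 / 3 : ℝ) /
        Real.log X ^ A' := by
  obtain ⟨C₁, hC₁, h1⟩ := all_t hNC hcls he hk A'
  obtain ⟨C₂, hC₂, h2⟩ := tail_t (f := f) (η := η) hcls hk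
  obtain ⟨C₀, hC₀, h0⟩ := NCf_family
  set K : ℝ := (((A' + 2 : ℕ) + 1) / (k / 4)) ^ (A' + 2) with hK
  have hK0 : 0 ≤ K := by positivity
  refine ⟨C₀ * (8 * C₁ + C₂ * K), by positivity, ?_⟩
  intro κ X i j l P y₁ y₂ S
  have hX0 := P.hX0
  have hL1 := P.L1
  have hA1 := P.A_one
  have hB := P.B_pos
  have hKc := P.hK
  have htail := P.tail A'
  have h1' := h1 κ X i j l P y₁ y₂
  have h2' := h2 κ₀ e κ X i j l P y₁ y₂
  set L := Real.log X with hL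
  set A : ℝ := (2 : ℝ) ^ i - 1 / 2 with hA
  set B : ℝ := (2 : ℝ) ^ j - 1 / 2 with hB'
  have hA0 : 0 < A := by linarith
  have hY1 : 1 ≤ 2 * A := by linarith
  have hY0 : 0 < 2 * A := by linarith
  have hLA : 0 < L ^ A' := by positivity
  set H0 : ℝ := (2 * A) ^ (1 + k) with hH0
  have hH00 : 0 < H0 := by positivity
  have h3 := h0 A B H0 (C₁ * (2 * A) ^ 2 / L ^ A') (C₁ * (2 * A) ^ 2 / L ^ A')
    (C₂ * L ^ 2 * (2 * A) ^ (7 / 3 + k)) S (fun s => blk (alc f η X y₁ y₂ i) l s) hA0 hB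
    (by positivity) (by positivity) (by positivity) hH00 hKc
    (fun σ hσ t H hH1 hH2 => h1' σ t hσ S H hH1 hH2)
    (fun σ hσ t H hH1 hH2 => h2' σ t hσ S H hH1 hH2)
  refine h3.trans ?_
  have e1 : (B / A) * ((C₁ * (2 * A) ^ 2 / L ^ A' + C₁ * (2 * A) ^ 2 / L ^ A') *
      (A ^ 2 / B) ^ (1 / 3 : ℝ)) = 8 * C₁ * (A ^ (5 / 3 : ℝ) * B ^ (2 / 3 : ℝ) / L ^ A') := by
    have e2 : (A ^ 2 / B) ^ (1 / 3 : ℝ) = A ^ (2 / 3 : ℝ) / B ^ (1 / 3 : ℝ) := by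
      rw [Real.div_rpow (by positivity) hB.le, ← Real.rpow_natCast A 2, ← Real.rpow_mul hA0.le]
      norm_num
    have e3 : A ^ (5 / 3 : ℝ) = A * A ^ (2 / 3 : ℝ) := by
      rw [← Real.rpow_one_add' hA0.le (by norm_num)]; norm_num
    have e4 : B = B ^ (1 / 3 : ℝ) * B ^ (2 / 3 : ℝ) := by
      rw [← Real.rpow_add hB]; norm_num
    have hB3 : 0 < B ^ (1 / 3 : ℝ) := by positivity
    rw [e2, e3]
    have e5 : B / A * ((C₁ * (2 * A) ^ 2 / L ^ A' + C₁ * (2 * A) ^ 2 / L ^ A') *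
        (A ^ (2 / 3 : ℝ) / B ^ (1 / 3 : ℝ))) =
        8 * C₁ * (A * A ^ (2 / 3 : ℝ) * (B / B ^ (1 / 3 : ℝ)) / L ^ A') := by
      field_simp
      ring
    rw [e5]
    congr 3
    rw [div_eq_iff hB3.ne']
    conv_lhs => rw [e4]
    ring
  have e6 : (B / A) * ((C₂ * L ^ 2 * (2 * A) ^ (7 / 3 + k)) * ((A ^ 2 / B) / H0) ^ 2) ≤
      C₂ * K * (A ^ (5 / 3 : ℝ) * B ^ (2 / 3 : ℝ) / L ^ A') := by
    have f1 : H0 ^ 2 = (2 * A) ^ (2 + 2 * k) := by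
      rw [hH0, ← Real.rpow_natCast, ← Real.rpow_mul hY0.le]
      congr 1; push_cast; ring
    have f2 : (2 * A) ^ (7 / 3 + k) / H0 ^ 2 = (2 * A) ^ (1 / 3 - k) := by
      rw [f1, ← Real.rpow_sub hY0]; congr 1; ring
    have f3 : A ^ 3 ≤ A ^ (5 / 3 : ℝ) * (2 * A) ^ (4 / 3 : ℝ) := by
      calc A ^ 3 = A ^ (5 / 3 : ℝ) * A ^ (4 / 3 : ℝ) := by
            rw [← Real.rpow_add hA0, ← Real.rpow_natCast A 3]; norm_num
        _ ≤ A ^ (5 / 3 : ℝ) * (2 * A) ^ (4 / 3 : ℝ) := by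
            gcongr
            linarith
    have f4 : B ^ (5 / 3 : ℝ) = B * B ^ (2 / 3 : ℝ) := by
      rw [← Real.rpow_one_add' hB.le (by norm_num)]; norm_num
    rw [f4] at htail
    calc (B / A) * ((C₂ * L ^ 2 * (2 * A) ^ (7 / 3 + k)) * ((A ^ 2 / B) / H0) ^ 2)
        = C₂ * L ^ 2 * ((2 * A) ^ (7 / 3 + k) / H0 ^ 2) * A ^ 3 / B := by
          field_simp
      _ = C₂ * L ^ 2 * (2 * A) ^ (1 / 3 - k) * A ^ 3 / B := by rw [f2]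
      _ ≤ C₂ * L ^ 2 * (2 * A) ^ (1 / 3 - k) * (A ^ (5 / 3 : ℝ) * (2 * A) ^ (4 / 3 : ℝ)) / B := by
          gcongr
      _ = C₂ * A ^ (5 / 3 : ℝ) * (L ^ (A' + 2) * ((2 * A) ^ (1 / 3 - k) *
            (2 * A) ^ (4 / 3 : ℝ))) / B / L ^ A' := by
          rw [pow_add]; field_simp
      _ = C₂ * A ^ (5 / 3 : ℝ) * (L ^ (A' + 2) * (2 * A) ^ (5 / 3 - k)) / B / L ^ A' := by
          rw [← Real.rpow_add hY0]
          congr 5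
          ring
      _ ≤ C₂ * A ^ (5 / 3 : ℝ) * (K * (B * B ^ (2 / 3 : ℝ))) / B / L ^ A' := by gcongr
      _ = _ := by field_simp
  have e7 : C₀ * ((B / A) * ((C₁ * (2 * A) ^ 2 / L ^ A' + C₁ * (2 * A) ^ 2 / L ^ A') *
      (A ^ 2 / B) ^ (1 / 3 : ℝ) + (C₂ * L ^ 2 * (2 * A) ^ (7 / 3 + k)) *
        ((A ^ 2 / B) / H0) ^ 2)) =
      C₀ * ((B / A) * ((C₁ * (2 * A) ^ 2 / L ^ A' + C₁ * (2 * A) ^ 2 / L ^ A') *
      (A ^ 2 / B) ^ (1 / 3 : ℝ)) + (B / A) * ((C₂ * L ^ 2 * (2 * A) ^ (7 / 3 + k)) *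
        ((A ^ 2 / B) / H0) ^ 2)) := by ring
  rw [e7, e1]
  calc C₀ * (8 * C₁ * (A ^ (5 / 3 : ℝ) * B ^ (2 / 3 : ℝ) / L ^ A') +
        (B / A) * ((C₂ * L ^ 2 * (2 * A) ^ (7 / 3 + k)) * ((A ^ 2 / B) / H0) ^ 2))
      ≤ C₀ * (8 * C₁ * (A ^ (5 / 3 : ℝ) * B ^ (2 / 3 : ℝ) / L ^ A') +
        C₂ * K * (A ^ (5 / 3 : ℝ) * B ^ (2 / 3 : ℝ) / L ^ A')) := by gcongr
    _ = _ := by ring

end Vale.Agent.P006.TIIC
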